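import Vale.Agent.Lib.P070.Interface2

/-!
# P070, part C: common definitions

`Killed g π x`: the vector `x` is killed by all `π (t_k^*)`.  `Mod A g`: a cyclic representation of
`A` whose cyclic unit vector is killed by the germ `g`.  `Sys A`: one model for each class of rigid
germs.
-/

open Filter Topology

namespace P070

universe u v

namespace C

/-- `x` is killed by all `π (star (g.t k))` -/
def Killed {A : Type} [CStarAlgebra A] (g : Germ A) {K : Type u} [NormedAddCommGroup K]
    [InnerProductSpace ℂ K] [CompleteSpace K] (π : A →⋆ₐ[ℂ] (K →L[ℂ] K)) (x : K) : Prop :=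
  ∀ k, π (star (g.t k)) x = 0

/-- the state of a rigid germ -/
noncomputable def phi {A : Type} [CStarAlgebra A] {g : Germ A} (hg : RigidT g) (a : A) : ℂ :=
  (hg a).choose

theorem phi_spec {A : Type} [CStarAlgebra A] {g : Germ A} (hg : RigidT g) (a : A) :
    Tendsto (fun n => ‖g.p n * a * g.p n - phi hg a • g.p n‖) atTop (𝓝 0) :=
  (hg a).choose_spec

/-- cyclic representation with killed cyclic unit vector -/
structure Mod (A : Type) [CStarAlgebra A] (g : Germ A) where
  K : Type
  [i1 : NormedAddCommGroup K]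
  [i2 : InnerProductSpace ℂ K]
  [i3 : CompleteSpace K]
  π : A →⋆ₐ[ℂ] (K →L[ℂ] K)
  ξ : K
  norm_ξ : ‖ξ‖ = 1
  kill : Killed g π ξ
  cyc : ∀ L : Submodule ℂ K, IsClosed (L : Set K) → (∀ a, π a ξ ∈ L) → L = ⊤

attribute [instance] Mod.i1 Mod.i2 Mod.i3

/-- one model for each class of rigid germs -/
structure Sys (A : Type) [CStarAlgebra A] where
  C : Type
  z : C → Germ A
  rig : ∀ c, RigidT (z c)
  M : ∀ c, Mod A (z c)
  c₀ : C
  ineq : ∀ c d, c ≠ d → ∀ x : (M c).K, Killed (z d) (M c).π x → x = 0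
  full : ∀ g : Germ A, RigidT g → ∃ c, ∃ x : (M c).K, x ≠ 0 ∧ Killed g (M c).π x

/-- the Hilbert space `⊕_c K_c` -/
abbrev Sys.H {A : Type} [CStarAlgebra A] (S : Sys A) : Type := lp (fun c => (S.M c).K) 2

end C

end P070
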