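import Vale.Agent.Lib.P070.C.Model

/-!
# P070 C7: orthogonality of inequivalent parts, and the isometry `H → L`

`orth`: `V_c : K_c → L`, `V_d : K_d → L` isometries intertwining `π_c, π_d` with `ρ`, `c ≠ d`. Then
the ranges are orthogonal. Proof: `T = V_c^* V_d : K_d → K_c` (adjoint of the continuous linear map)
satisfies `T π_d(a) = π_c(a) T`, so `T ξ_d` is killed by `z d`, hence `0` by `S.ineq c d`; so
`T (π_d(a) ξ_d) = 0` for all `a`, and `T = 0` because `ξ_d` is cyclic (`(S.M d).cyc` for `ker T`).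

`embed`: let `ρ : A → B(L)` and unit vectors `η c`, killed by `z c`. Then there is an isometry
`W : H → L` with `W (lp.single 2 c x) = V_c x`, intertwining. Use
`OrthogonalFamily.linearIsometry` (`Mathlib.Analysis.InnerProductSpace.l2Space`) for the family
`V_c` of `mod_embed`.
-/

open Filter Topology

namespace P070

universe u v

namespace C

theorem orth {A : Type} [CStarAlgebra A] (S : Sys A) {L : Type v} [NormedAddCommGroup L]
    [InnerProductSpace ℂ L] [CompleteSpace L] (ρ : A →⋆ₐ[ℂ] (L →L[ℂ] L)) (c d : S.C)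
    (hcd : c ≠ d) (V : (S.M c).K →ₗᵢ[ℂ] L) (V' : (S.M d).K →ₗᵢ[ℂ] L)
    (hV : ∀ a x, V ((S.M c).π a x) = ρ a (V x)) (hV' : ∀ a x, V' ((S.M d).π a x) = ρ a (V' x))
    (x : (S.M c).K) (y : (S.M d).K) : inner ℂ (V x) (V' y) = 0 := by
  let T : (S.M d).K →L[ℂ] (S.M c).K :=
    (ContinuousLinearMap.adjoint V.toContinuousLinearMap) ∘L V'.toContinuousLinearMap
  have hT : ∀ (x : (S.M c).K) (y : (S.M d).K), inner ℂ x (T y) = inner ℂ (V x) (V' y) := by
    intro x y
    exact ContinuousLinearMap.adjoint_inner_right V.toContinuousLinearMap x (V' y)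
  have hint : ∀ (a : A) (y : (S.M d).K), T ((S.M d).π a y) = (S.M c).π a (T y) := by
    intro a y
    refine ext_inner_left ℂ fun x => ?_
    have h1 : inner ℂ x ((S.M c).π a (T y)) = inner ℂ ((S.M c).π (star a) x) (T y) := by
      have h2 : (S.M c).π (star a) = ContinuousLinearMap.adjoint ((S.M c).π a) := by
        rw [map_star]
        rfl
      rw [h2, ContinuousLinearMap.adjoint_inner_left]
    have h3 : ρ (star a) = ContinuousLinearMap.adjoint (ρ a) := by
      rw [map_star]
      rfl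
    rw [h1, hT, hT, hV, hV', h3, ContinuousLinearMap.adjoint_inner_left]
  have h0 : T (S.M d).ξ = 0 := by
    refine S.ineq c d hcd _ fun k => ?_
    rw [← hint, (S.M d).kill k, map_zero]
  have hker : LinearMap.ker T.toLinearMap = ⊤ := by
    refine (S.M d).cyc _ T.isClosed_ker fun a => ?_
    rw [LinearMap.mem_ker]
    show T ((S.M d).π a (S.M d).ξ) = 0
    rw [hint, h0, map_zero]
  have hy : T y = 0 := by
    have h1 : y ∈ LinearMap.ker T.toLinearMap := by
      rw [hker]
      trivial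
    exact h1
  rw [← hT, hy, inner_zero_right]

theorem embed {A : Type} [CStarAlgebra A] (S : Sys A) {L : Type v} [NormedAddCommGroup L]
    [InnerProductSpace ℂ L] [CompleteSpace L] (ρ : A →⋆ₐ[ℂ] (L →L[ℂ] L)) (η : S.C → L)
    (hη : ∀ c, ‖η c‖ = 1) (hk : ∀ c, Killed (S.z c) ρ (η c)) [DecidableEq S.C] :
    ∃ W : S.H →ₗᵢ[ℂ] L, (∀ c, W (lp.single 2 c (S.M c).ξ) = η c) ∧
      ∀ a c x, W (lp.single 2 c ((S.M c).π a x)) = ρ a (W (lp.single 2 c x)) := by
  choose V hVξ hV using fun c => mod_embed (S.rig c) (S.M c) ρ (η c) (hη c) (hk c)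
  have hO : OrthogonalFamily ℂ (fun c => (S.M c).K) V := fun c d hcd x y =>
    orth S ρ c d hcd (V c) (V d) (hV c) (hV d) x y
  refine ⟨hO.linearIsometry, fun c => ?_, fun a c x => ?_⟩
  · rw [hO.linearIsometry_apply_single, hVξ]
  · rw [hO.linearIsometry_apply_single, hO.linearIsometry_apply_single, hV]

end C

end P070
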