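import Vale.Agent.Lib.P070.C.Base

/-!
# P070 C9, C10: the unitary, density

`tendsto_p`: `g` a germ (any), `π` a representation without nonzero killed vector. Then
`∑_{k<n} π(t_k t_k^*) x → x` for every `x`. Proof: `Q_n = π(∑_{k<n} t_k t_k^*)` is an increasing
sequence of orthogonal projections; `‖Q_n x - Q_m x‖² = ∑_{m ≤ k < n} ‖π(t_k^*) x‖²` and
`∑_k ‖π(t_k^*) x‖² ≤ ‖x‖²`, so `Q_n x → y`; `x - y` is killed (`π(t_k^*)(x - Q_n x) = 0` for
`n > k`), so it is `0`.

`tendsto_p'`: general version: the limit `y` exists and `x - y` is killed.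

`ext_killed`: two continuous linear maps `H → L` which agree on all `π(t_k) x` and on all killed
vectors are equal (`x = lim Q_n x + (killed)`).

`exists_unitary`: `t`, `z` germs, `π` a representation on `H`, unit vectors `ξ`, `η` such that the
`t`-killed vectors are the multiples of `ξ` and the `z`-killed vectors the multiples of `η`. Then
there is a unitary `u` on `H` with `u π(t_k) = π(z_k)`, `u ξ = η`. Proof:
`u_n = ∑_{k<n} π(z_k t_k^*) + |η⟩⟨ξ|` converges pointwise (`‖(u_n - u_m) x‖² = ∑ ‖π(t_k^*) x‖²`),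
`‖u_n x‖² = ∑_{k<n} ‖π(t_k^*)x‖² + |⟨ξ,x⟩|² → ‖x‖²` (by `tendsto_p'`), so the limit `u` is an
isometry; the same for `v_n = ∑_{k<n} π(t_k z_k^*) + |ξ⟩⟨η| = u_n^*`, `v = u^*`: so `u` is unitary.
-/

open Filter Topology

namespace P070

universe u v

namespace C

section UnitAux

variable {A : Type} [CStarAlgebra A] {K : Type u} [NormedAddCommGroup K]
    [InnerProductSpace ℂ K] [CompleteSpace K]

theorem Unit_adj (π : A →⋆ₐ[ℂ] (K →L[ℂ] K)) (a : A) (x y : K) :
    inner ℂ (π a x) y = inner ℂ x (π (star a) y) := by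
  rw [map_star]
  exact (ContinuousLinearMap.adjoint_inner_right (π a) x y).symm

theorem Unit_adj' (π : A →⋆ₐ[ℂ] (K →L[ℂ] K)) (a : A) (x y : K) :
    inner ℂ x (π a y) = inner ℂ (π (star a) x) y := by
  rw [Unit_adj, star_star]

theorem Unit_comp (g : Germ A) (π : A →⋆ₐ[ℂ] (K →L[ℂ] K)) (j k : ℕ) (x : K) :
    π (star (g.t j)) (π (g.t k) x) = if j = k then x else 0 := by
  have h1 : π (star (g.t j)) (π (g.t k) x) = π (star (g.t j) * g.t k) x := by
    rw [map_mul]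
    rfl
  rw [h1, g.orth]
  by_cases h : j = k
  · rw [if_pos h, if_pos h, map_one]
    rfl
  · rw [if_neg h, if_neg h, map_zero]
    rfl

theorem Unit_inner (g : Germ A) (π : A →⋆ₐ[ℂ] (K →L[ℂ] K)) (j k : ℕ) (x y : K) :
    inner ℂ (π (g.t j) x) (π (g.t k) y) = if j = k then inner ℂ x y else 0 := by
  rw [Unit_adj, Unit_comp]
  by_cases h : j = k
  · rw [if_pos h, if_pos h]
  · rw [if_neg h, if_neg h, inner_zero_right]

theorem Unit_norm_t (g : Germ A) (π : A →⋆ₐ[ℂ] (K →L[ℂ] K)) (k : ℕ) (x : K) :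
    ‖π (g.t k) x‖ = ‖x‖ := by
  have h1 : ‖π (g.t k) x‖ ^ 2 = ‖x‖ ^ 2 := by
    rw [← inner_self_eq_norm_sq (𝕜 := ℂ), ← inner_self_eq_norm_sq (𝕜 := ℂ), Unit_inner,
      if_pos rfl]
  exact (pow_left_inj₀ (norm_nonneg _) (norm_nonneg _) two_ne_zero).1 h1

/-- the isometry `π (t_k)` -/
noncomputable def Unit_V (g : Germ A) (π : A →⋆ₐ[ℂ] (K →L[ℂ] K)) (k : ℕ) : K →ₗᵢ[ℂ] K :=
  { (π (g.t k)).toLinearMap with
    norm_map' := fun x => Unit_norm_t g π k x }

theorem Unit_OF (g : Germ A) (π : A →⋆ₐ[ℂ] (K →L[ℂ] K)) :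
    OrthogonalFamily ℂ (fun _ : ℕ => K) (Unit_V g π) := by
  intro j k hjk x y
  have h1 := Unit_inner g π j k x y
  rw [if_neg hjk] at h1
  exact h1

theorem Unit_sum_sq (g : Germ A) (π : A →⋆ₐ[ℂ] (K →L[ℂ] K)) (n : ℕ) (a : ℕ → K) :
    ‖∑ k ∈ Finset.range n, π (g.t k) (a k)‖ ^ 2 = ∑ k ∈ Finset.range n, ‖a k‖ ^ 2 :=
  (Unit_OF g π).norm_sum a (Finset.range n)

/-- Bessel's inequality -/
theorem Unit_bessel (g : Germ A) (π : A →⋆ₐ[ℂ] (K →L[ℂ] K)) (n : ℕ) (x : K) :
    ∑ k ∈ Finset.range n, ‖π (star (g.t k)) x‖ ^ 2 ≤ ‖x‖ ^ 2 := by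
  have h1 := Unit_sum_sq g π n fun k => π (star (g.t k)) x
  set Q := ∑ k ∈ Finset.range n, π (g.t k) (π (star (g.t k)) x) with hQ
  have h2 : (inner ℂ x Q : ℂ).re = ∑ k ∈ Finset.range n, ‖π (star (g.t k)) x‖ ^ 2 := by
    rw [hQ, inner_sum, Complex.re_sum]
    refine Finset.sum_congr rfl fun k _ => ?_
    rw [Unit_adj', ← inner_self_eq_norm_sq (𝕜 := ℂ)]
    rfl
  have h3 : ‖x - Q‖ ^ 2 = ‖x‖ ^ 2 - 2 * (inner ℂ x Q : ℂ).re + ‖Q‖ ^ 2 := by
    have := @norm_sub_sq ℂ K _ _ _ x Q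
    exact this
  have h4 : 0 ≤ ‖x - Q‖ ^ 2 := by positivity
  rw [h3, h1, h2] at h4
  linarith

theorem Unit_summable_sq (g : Germ A) (π : A →⋆ₐ[ℂ] (K →L[ℂ] K)) (x : K) :
    Summable fun k => ‖π (star (g.t k)) x‖ ^ 2 :=
  summable_of_sum_range_le (c := ‖x‖ ^ 2) (fun k => by positivity) fun n => Unit_bessel g π n x

/-- sums `∑ π (z_k) π (t_k^*) x` converge -/
theorem Unit_summable (t z : Germ A) (π : A →⋆ₐ[ℂ] (K →L[ℂ] K)) (x : K) :
    Summable fun k => π (z.t k) (π (star (t.t k)) x) :=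
  ((Unit_OF z π).summable_iff_norm_sq_summable fun k => π (star (t.t k)) x).2
    (Unit_summable_sq t π x)

theorem Unit_norm_sq (g : Germ A) (π : A →⋆ₐ[ℂ] (K →L[ℂ] K)) (n : ℕ) (a : ℕ → K) {ζ : K}
    (hζ : ‖ζ‖ = 1) (hk : Killed g π ζ) (c : ℂ) :
    ‖∑ k ∈ Finset.range n, π (g.t k) (a k) + c • ζ‖ ^ 2 =
      ∑ k ∈ Finset.range n, ‖a k‖ ^ 2 + ‖c‖ ^ 2 := by
  have h1 : (inner ℂ (∑ k ∈ Finset.range n, π (g.t k) (a k)) (c • ζ) : ℂ) = 0 := by
    rw [sum_inner]
    refine Finset.sum_eq_zero fun k _ => ?_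
    rw [Unit_adj, map_smul, hk k, smul_zero, inner_zero_right]
  have h2 := @norm_add_sq ℂ K _ _ _ (∑ k ∈ Finset.range n, π (g.t k) (a k)) (c • ζ)
  rw [h1] at h2
  rw [h2, Unit_sum_sq, norm_smul, hζ, mul_one]
  simp

end UnitAux

theorem tendsto_p' {A : Type} [CStarAlgebra A] (g : Germ A) {K : Type u} [NormedAddCommGroup K]
    [InnerProductSpace ℂ K] [CompleteSpace K] (π : A →⋆ₐ[ℂ] (K →L[ℂ] K)) (x : K) :
    ∃ y : K, Tendsto (fun n => ∑ k ∈ Finset.range n, π (g.t k) (π (star (g.t k)) x)) atTop (𝓝 y) ∧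
      Killed g π (x - y) := by
  have h1 := (Unit_summable g g π x).hasSum.tendsto_sum_nat
  refine ⟨_, h1, fun k => ?_⟩
  have h2 := ((π (star (g.t k))).continuous.tendsto _).comp h1
  have h3 : Tendsto ((π (star (g.t k))) ∘ fun n => ∑ j ∈ Finset.range n,
      π (g.t j) (π (star (g.t j)) x)) atTop (𝓝 (π (star (g.t k)) x)) := by
    refine tendsto_const_nhds.congr' ?_
    filter_upwards [eventually_gt_atTop k] with n hn
    rw [Function.comp_apply, map_sum, Finset.sum_eq_single k]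
    · rw [Unit_comp, if_pos rfl]
    · intro j _ hj
      rw [Unit_comp, if_neg hj.symm]
    · intro hk
      exact absurd (Finset.mem_range.2 hn) hk
  rw [map_sub, tendsto_nhds_unique h2 h3, sub_self]

theorem tendsto_p {A : Type} [CStarAlgebra A] (g : Germ A) {K : Type u} [NormedAddCommGroup K]
    [InnerProductSpace ℂ K] [CompleteSpace K] (π : A →⋆ₐ[ℂ] (K →L[ℂ] K))
    (h : ∀ x, Killed g π x → x = 0) (x : K) :
    Tendsto (fun n => ∑ k ∈ Finset.range n, π (g.t k) (π (star (g.t k)) x)) atTop (𝓝 x) := by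
  obtain ⟨y, h1, h2⟩ := tendsto_p' g π x
  rwa [← sub_eq_zero.1 (h _ h2)] at h1

theorem ext_killed {A : Type} [CStarAlgebra A] (g : Germ A) {K : Type u} [NormedAddCommGroup K]
    [InnerProductSpace ℂ K] [CompleteSpace K] (π : A →⋆ₐ[ℂ] (K →L[ℂ] K)) {L : Type v}
    [NormedAddCommGroup L] [InnerProductSpace ℂ L] [CompleteSpace L] (T T' : K →L[ℂ] L)
    (h1 : ∀ k x, T (π (g.t k) x) = T' (π (g.t k) x))
    (h2 : ∀ x, Killed g π x → T x = T' x) : T = T' := by
  ext x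
  obtain ⟨y, h3, h4⟩ := tendsto_p' g π x
  have h5 := (T.continuous.tendsto _).comp h3
  have h6 := (T'.continuous.tendsto _).comp h3
  have h7 : (T ∘ fun n => ∑ k ∈ Finset.range n, π (g.t k) (π (star (g.t k)) x)) =
      T' ∘ fun n => ∑ k ∈ Finset.range n, π (g.t k) (π (star (g.t k)) x) := by
    funext n
    rw [Function.comp_apply, Function.comp_apply, map_sum, map_sum]
    exact Finset.sum_congr rfl fun k _ => h1 k _
  rw [h7] at h5
  have h8 := tendsto_nhds_unique h5 h6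
  have h9 := h2 _ h4
  rw [map_sub, map_sub, h8] at h9
  exact sub_left_injective h9

/-- the isometry `∑ π (z_k) π (t_k^*) + |η⟩⟨ξ|` -/
theorem Unit_isometry {A : Type} [CStarAlgebra A] (t z : Germ A) {K : Type u}
    [NormedAddCommGroup K] [InnerProductSpace ℂ K] [CompleteSpace K]
    (π : A →⋆ₐ[ℂ] (K →L[ℂ] K)) (ξ η : K) (hξ : ‖ξ‖ = 1) (hη : ‖η‖ = 1)
    (h1 : Killed t π ξ) (h2 : Killed z π η)
    (h3 : ∀ x, Killed t π x → x = (inner ℂ ξ x : ℂ) • ξ) :
    ∃ W : K →ₗᵢ[ℂ] K, (∀ k x, W (π (t.t k) x) = π (z.t k) x) ∧ W ξ = η := by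
  have hlim : ∀ x, Tendsto (fun n => ∑ k ∈ Finset.range n, π (z.t k) (π (star (t.t k)) x) +
      (inner ℂ ξ x : ℂ) • η) atTop
        (𝓝 ((∑' k, π (z.t k) (π (star (t.t k)) x)) + (inner ℂ ξ x : ℂ) • η)) := fun x =>
    ((Unit_summable t z π x).hasSum.tendsto_sum_nat).add_const _
  have hx : ∀ x, Tendsto (fun n => ∑ k ∈ Finset.range n, π (t.t k) (π (star (t.t k)) x) +
      (inner ℂ ξ x : ℂ) • ξ) atTop (𝓝 x) := by
    intro x
    obtain ⟨y, h4, h5⟩ := tendsto_p' t π x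
    have h6 : (inner ℂ ξ y : ℂ) = 0 := by
      have h7 := (tendsto_const_nhds (x := ξ)).inner (𝕜 := ℂ) h4
      have h8 : (fun n => (inner ℂ ξ (∑ k ∈ Finset.range n,
          π (t.t k) (π (star (t.t k)) x)) : ℂ)) = fun _ => (0 : ℂ) := by
        funext n
        rw [inner_sum]
        refine Finset.sum_eq_zero fun k _ => ?_
        rw [Unit_adj', h1 k, inner_zero_left]
      rw [h8] at h7
      exact tendsto_nhds_unique h7 tendsto_const_nhds
    have h7 := h3 _ h5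
    rw [inner_sub_right, h6, sub_zero] at h7
    have h8 := h4.add_const ((inner ℂ ξ x : ℂ) • ξ)
    have h9 : y + (inner ℂ ξ x : ℂ) • ξ = x := by rw [← h7, add_sub_cancel]
    rwa [h9] at h8
  have hnorm : ∀ x, ‖(∑' k, π (z.t k) (π (star (t.t k)) x)) + (inner ℂ ξ x : ℂ) • η‖ = ‖x‖ := by
    intro x
    have h4 := (hlim x).norm
    have h5 := (hx x).norm
    have h6 : (fun n => ‖∑ k ∈ Finset.range n, π (z.t k) (π (star (t.t k)) x) +
        (inner ℂ ξ x : ℂ) • η‖) = fun n => ‖∑ k ∈ Finset.range n,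
          π (t.t k) (π (star (t.t k)) x) + (inner ℂ ξ x : ℂ) • ξ‖ := by
      funext n
      have h7 := Unit_norm_sq z π n (fun k => π (star (t.t k)) x) hη h2 (inner ℂ ξ x)
      have h8 := Unit_norm_sq t π n (fun k => π (star (t.t k)) x) hξ h1 (inner ℂ ξ x)
      rw [← h8] at h7
      exact (pow_left_inj₀ (norm_nonneg _) (norm_nonneg _) two_ne_zero).1 h7
    rw [h6] at h4
    exact tendsto_nhds_unique h4 h5
  let W : K →ₗᵢ[ℂ] K :=
    { toFun := fun x => (∑' k, π (z.t k) (π (star (t.t k)) x)) + (inner ℂ ξ x : ℂ) • η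
      map_add' := fun x y => by
        have h4 : (∑' k, π (z.t k) (π (star (t.t k)) (x + y))) =
            (∑' k, π (z.t k) (π (star (t.t k)) x)) + ∑' k, π (z.t k) (π (star (t.t k)) y) := by
          rw [← (Unit_summable t z π x).tsum_add (Unit_summable t z π y)]
          refine tsum_congr fun k => ?_
          rw [map_add, map_add]
        rw [h4, inner_add_right, add_smul]
        abel
      map_smul' := fun c x => by
        have h4 : (∑' k, π (z.t k) (π (star (t.t k)) (c • x))) =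
            c • ∑' k, π (z.t k) (π (star (t.t k)) x) := by
          rw [← (Unit_summable t z π x).tsum_const_smul c]
          refine tsum_congr fun k => ?_
          rw [map_smul, map_smul]
        rw [h4, inner_smul_right, RingHom.id_apply, smul_add, smul_smul]
      norm_map' := hnorm }
  have hW : ∀ x, W x = (∑' k, π (z.t k) (π (star (t.t k)) x)) + (inner ℂ ξ x : ℂ) • η :=
    fun x => rfl
  refine ⟨W, fun k x => ?_, ?_⟩
  · rw [hW, Unit_adj', h1 k, inner_zero_left, zero_smul, add_zero, tsum_eq_single k]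
    · rw [Unit_comp, if_pos rfl]
    · intro j hj
      rw [Unit_comp, if_neg hj, map_zero]
  · rw [hW]
    have h4 : (∑' k, π (z.t k) (π (star (t.t k)) ξ)) = 0 := by
      have h5 : (fun k => π (z.t k) (π (star (t.t k)) ξ)) = fun _ => 0 := by
        funext k
        rw [h1 k, map_zero]
      rw [h5, tsum_zero]
    rw [h4, zero_add, inner_self_eq_norm_sq_to_K, hξ]
    simp

theorem exists_unitary {A : Type} [CStarAlgebra A] (t z : Germ A) {K : Type u}
    [NormedAddCommGroup K] [InnerProductSpace ℂ K] [CompleteSpace K]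
    (π : A →⋆ₐ[ℂ] (K →L[ℂ] K)) (ξ η : K) (hξ : ‖ξ‖ = 1) (hη : ‖η‖ = 1)
    (h1 : Killed t π ξ) (h2 : Killed z π η)
    (h3 : ∀ x, Killed t π x → x = (inner ℂ ξ x : ℂ) • ξ)
    (h4 : ∀ x, Killed z π x → x = (inner ℂ η x : ℂ) • η) :
    ∃ w : K →L[ℂ] K, w ∈ unitary (K →L[ℂ] K) ∧ (∀ k, w * π (t.t k) = π (z.t k)) ∧ w ξ = η := by
  obtain ⟨W, hW1, hW2⟩ := Unit_isometry t z π ξ η hξ hη h1 h2 h3
  obtain ⟨V, hV1, hV2⟩ := Unit_isometry z t π η ξ hη hξ h2 h1 h4
  have e1 : W.toContinuousLinearMap.comp V.toContinuousLinearMap = ContinuousLinearMap.id ℂ K := by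
    refine ext_killed z π _ _ (fun k x => ?_) fun x hx => ?_
    · change W (V (π (z.t k) x)) = π (z.t k) x
      rw [hV1, hW1]
    · change W (V x) = x
      rw [h4 x hx, map_smul, map_smul, hV2, hW2]
  have hsurj : Function.Surjective W := fun y => ⟨V y, by
    have := congrArg (fun T : K →L[ℂ] K => T y) e1
    exact this⟩
  have hstar : star W.toContinuousLinearMap * W.toContinuousLinearMap = 1 := by
    ext x
    refine ext_inner_left ℂ fun y => ?_
    have h5 : (star W.toContinuousLinearMap * W.toContinuousLinearMap) x =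
        ContinuousLinearMap.adjoint W.toContinuousLinearMap (W x) := rfl
    rw [h5, ContinuousLinearMap.adjoint_inner_right]
    exact W.inner_map_map y x
  refine ⟨W.toContinuousLinearMap, Unitary.mem_iff.2 ⟨hstar, ?_⟩, fun k => ?_, hW2⟩
  · ext y
    obtain ⟨x, rfl⟩ := hsurj y
    have h5 : (W.toContinuousLinearMap * star W.toContinuousLinearMap) (W x) =
        W ((star W.toContinuousLinearMap * W.toContinuousLinearMap) x) := rfl
    rw [h5, hstar]
    rfl
  · ext x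
    exact hW1 k x

end C

end P070
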