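import Vale.Agent.Lib.P070.C.StarD
import Vale.Agent.Lib.P070.C.Orth
import Vale.Agent.Lib.P070.C.Unit

/-!
# P070 C: representations of `D` with a `t`-killed unit vector contain `π`

`ρ : D → B(L)`, `η` a unit vector killed by `t = S.z S.c₀` (for `ρ ∘ ι`). Put
`η c = ρ (w c) η` (so `η c₀ = η` by `T.hw0`); `‖η c‖ = 1` and `η c` is killed by `z c`:
`star (ι z_k) * w c = star (ι t_k)` because `star (w c) * ι z_k = star (w c) * w c * ι t_k = ι t_k`.
`embed` (for `ρ ∘ ι`) gives the isometry `W : H → L`, `W e_c = η c`, intertwining `A` on the vectors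
`lp.single 2 c x`, hence on `H` (density of finite sums of `lp.single`: `lp.hasSum_single` or
similar; note `π (ι a) (lp.single 2 c x) = lp.single 2 c (π_c(a) x)` by `Q_e` applied to
`T.π.comp T.ι`). `W (π (w c) x) = ρ (w c) (W x)`: both sides are continuous linear in `x`; they agree
on `x = π (ι t_k) y`: `W (π (ι z_k) y) = ρ (ι z_k) (W y)`, and on killed vectors, which are multiples
of `e_{c₀}` (`killed_H`): `W (π (w c) e_{c₀}) = W e_c = η c = ρ (w c) η = ρ (w c) (W e_{c₀})`.
Use `ext_killed` (for `t`, `K = H`, the representation `T.π.comp T.ι`).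
Then `{d | (∀ x, W (π d x) = ρ d (W x)) ∧ (∀ x, W (π (star d) x) = ρ (star d) (W x))}` is a closed
star subalgebra containing `ι a`, `w c` (for `star (w c)`: apply the identity to
`π (star (w c)) x`), so it is `⊤` by `T.gen`.
-/

open Filter Topology

namespace P070

universe u v

namespace C

/-- continuous linear maps on the direct sum agree if they agree on the components -/
private theorem Case1_ext {A : Type} [CStarAlgebra A] (S : Sys A) [DecidableEq S.C]
    {L : Type v} [NormedAddCommGroup L] [InnerProductSpace ℂ L] (F G : S.H →L[ℂ] L)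
    (h : ∀ c x, F (lp.single 2 c x) = G (lp.single 2 c x)) (x : S.H) : F x = G x := by
  have h1 : HasSum (fun c => lp.single 2 c (x c)) x := lp.hasSum_single (by norm_num) x
  have h2 := h1.mapL F
  have h3 := h1.mapL G
  have h4 : (fun c => F (lp.single 2 c (x c))) = fun c => G (lp.single 2 c (x c)) := by
    funext c
    exact h c _
  rw [h4] at h2
  exact h2.unique h3

private theorem Case1_cont {D : Type} [CStarAlgebra D] {L : Type v} [NormedAddCommGroup L]
    [InnerProductSpace ℂ L] [CompleteSpace L] (ρ : D →⋆ₐ[ℂ] (L →L[ℂ] L)) (x : L) :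
    Continuous fun d => ρ d x := by
  have h0 : ContinuousLinearMapClass (D →⋆ₐ[ℂ] (L →L[ℂ] L)) ℂ D (L →L[ℂ] L) :=
    NonUnitalStarAlgHom.instContinuousLinearMapClassComplex
  have h1 : Continuous ρ := map_continuous ρ
  exact (ContinuousLinearMap.apply ℂ L x).continuous.comp h1

theorem case1 {A : Type} [CStarAlgebra A] (S : Sys A) [DecidableEq S.C] (T : Star S)
    {L : Type v}
    [NormedAddCommGroup L] [InnerProductSpace ℂ L] [CompleteSpace L]
    (ρ : T.D →⋆ₐ[ℂ] (L →L[ℂ] L)) (η : L) (hη : ‖η‖ = 1)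
    (hk : Killed (S.z S.c₀) (ρ.comp T.ι) η) :
    ∃ W : S.H →ₗᵢ[ℂ] L, ∀ d x, W (T.π d x) = ρ d (W x) := by
  obtain ⟨σ, hσ⟩ : ∃ σ : A →⋆ₐ[ℂ] (L →L[ℂ] L), σ = ρ.comp T.ι := ⟨_, rfl⟩
  have hσa : ∀ a y, σ a y = ρ (T.ι a) y := fun a y => by rw [hσ]; rfl
  obtain ⟨Q, hQ⟩ : ∃ Q : A →⋆ₐ[ℂ] (S.H →L[ℂ] S.H), Q = T.π.comp T.ι := ⟨_, rfl⟩
  have hQa : ∀ a y, Q a y = T.π (T.ι a) y := fun a y => by rw [hQ]; rfl
  rw [← hσ] at hk
  have hρm : ∀ (d d' : T.D) (y : L), ρ d (ρ d' y) = ρ (d * d') y := fun d d' y => by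
    rw [map_mul]; rfl
  have hπm : ∀ (d d' : T.D) (y : S.H), T.π d (T.π d' y) = T.π (d * d') y := fun d d' y => by
    rw [map_mul]; rfl
  have hww : ∀ c, star (T.w c) * T.w c = 1 := fun c => (Unitary.mem_iff.1 (T.hw c)).1
  have hww' : ∀ c, T.w c * star (T.w c) = 1 := fun c => (Unitary.mem_iff.1 (T.hw c)).2
  -- the vectors
  have hn : ∀ c, ‖ρ (T.w c) η‖ = 1 := by
    intro c
    have h1 : ‖ρ (T.w c) η‖ ^ 2 = ‖η‖ ^ 2 := by
      rw [← inner_self_eq_norm_sq (𝕜 := ℂ), ← inner_self_eq_norm_sq (𝕜 := ℂ), Unit_adj, hρm, hww,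
        map_one]
      rfl
    rw [hη] at h1
    exact (pow_left_inj₀ (norm_nonneg _) zero_le_one two_ne_zero).1 h1
  have hkc : ∀ c, Killed (S.z c) σ (ρ (T.w c) η) := by
    intro c k
    rw [hσa, hρm, map_star]
    have h1 : star (T.ι ((S.z c).t k)) * T.w c = star (T.ι ((S.z S.c₀).t k)) := by
      rw [← T.hwt c k, star_mul, mul_assoc, hww, mul_one]
    rw [h1, ← map_star, ← hσa]
    exact hk k
  obtain ⟨W, hW1, hW2⟩ := embed S σ (fun c => ρ (T.w c) η) hn hkc
  have hWe : ∀ c, W (S.e c) = ρ (T.w c) η := hW1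
  -- intertwining for `A`
  have hWA : ∀ a x, W (T.π (T.ι a) x) = ρ (T.ι a) (W x) := by
    intro a x
    have h1 := Case1_ext S (W.toContinuousLinearMap ∘L T.π (T.ι a))
      (ρ (T.ι a) ∘L W.toContinuousLinearMap) (fun c y => by
        change W (T.π (T.ι a) (lp.single 2 c y)) = ρ (T.ι a) (W (lp.single 2 c y))
        rw [← hQa, Q_e S Q (by rw [hQ]; exact T.hπ) a c y, hW2, hσa]) x
    exact h1
  -- intertwining for `w c`
  have hWw : ∀ c x, W (T.π (T.w c) x) = ρ (T.w c) (W x) := by
    intro c x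
    have h1 : W.toContinuousLinearMap ∘L T.π (T.w c) =
        ρ (T.w c) ∘L W.toContinuousLinearMap := by
      refine ext_killed (S.z S.c₀) Q _ _ (fun k y => ?_) fun y hy => ?_
      · change W (T.π (T.w c) (Q ((S.z S.c₀).t k) y)) = ρ (T.w c) (W (Q ((S.z S.c₀).t k) y))
        rw [hQa, hπm, T.hwt, hWA, hWA, hρm, T.hwt]
      · change W (T.π (T.w c) y) = ρ (T.w c) (W y)
        rw [killed_H S Q (by rw [hQ]; exact T.hπ) S.c₀ y hy, map_smul, map_smul, map_smul,
          map_smul, T.hπw, hWe, hWe, T.hw0, map_one]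
        rfl
    exact congrArg (fun F : S.H →L[ℂ] L => F x) h1
  have hWs : ∀ c x, W (T.π (star (T.w c)) x) = ρ (star (T.w c)) (W x) := by
    intro c x
    have h1 : x = T.π (T.w c) (T.π (star (T.w c)) x) := by
      rw [hπm, hww', map_one]
      rfl
    have h2 : ρ (star (T.w c)) (W x) = W (T.π (star (T.w c)) x) := by
      conv_lhs => rw [h1, hWw, hρm, hww, map_one]
      rfl
    exact h2.symm
  -- the star subalgebra
  let F : StarSubalgebra ℂ T.D :=
    { carrier := {d | (∀ x, W (T.π d x) = ρ d (W x)) ∧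
        ∀ x, W (T.π (star d) x) = ρ (star d) (W x)}
      mul_mem' := by
        rintro a b ⟨a1, a2⟩ ⟨b1, b2⟩
        refine ⟨fun x => ?_, fun x => ?_⟩
        · rw [← hπm, a1, b1, hρm]
        · rw [star_mul, ← hπm, b2, a2, hρm]
      add_mem' := by
        rintro a b ⟨a1, a2⟩ ⟨b1, b2⟩
        refine ⟨fun x => ?_, fun x => ?_⟩
        · rw [map_add, map_add, add_apply, add_apply,
            map_add, a1, b1]
        · rw [star_add, map_add, map_add, add_apply,
            add_apply, map_add, a2, b2]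
      algebraMap_mem' := by
        intro r
        refine ⟨fun x => ?_, fun x => ?_⟩
        · rw [Algebra.algebraMap_eq_smul_one, map_smul, map_smul, map_one, map_one]
          change W (r • x) = r • W x
          rw [map_smul]
        · rw [Algebra.algebraMap_eq_smul_one, star_smul, star_one, map_smul, map_smul, map_one,
            map_one]
          change W (star r • x) = star r • W x
          rw [map_smul]
      star_mem' := by
        rintro a ⟨a1, a2⟩
        exact ⟨a2, fun x => by rw [star_star]; exact a1 x⟩ }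
  have hFcl : IsClosed (F : Set T.D) := by
    have h1 : (F : Set T.D) = (⋂ x, {d | W (T.π d x) = ρ d (W x)}) ∩
        ⋂ x, {d | W (T.π (star d) x) = ρ (star d) (W x)} := by
      ext d
      simp only [Set.mem_inter_iff, Set.mem_iInter, Set.mem_ofPred_eq]
      rfl
    rw [h1]
    refine (isClosed_iInter fun x => ?_).inter (isClosed_iInter fun x => ?_)
    · exact isClosed_eq (W.continuous.comp (Case1_cont T.π x)) (Case1_cont ρ (W x))
    · exact isClosed_eq (W.continuous.comp ((Case1_cont T.π x).comp continuous_star))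
        ((Case1_cont ρ (W x)).comp continuous_star)
  have hF : F = ⊤ := by
    refine T.gen F hFcl (fun a => ?_) fun c => ?_
    · refine ⟨fun x => hWA a x, fun x => ?_⟩
      rw [← map_star]
      exact hWA (star a) x
    · exact ⟨fun x => hWw c x, fun x => hWs c x⟩
  refine ⟨W, fun d x => ?_⟩
  have h1 : d ∈ F := by rw [hF]; exact StarSubalgebra.mem_top
  exact h1.1 x

end C

end P070
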