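import Vale.Agent.Lib.P070.C.Base

/-!
# P070 C3: cyclic representations with the same vector state

`π a ξ ↦ ρ a η` is well defined and isometric: `‖π a ξ‖² = ⟨ξ, π (star a * a) ξ⟩`
`= ⟨η, ρ (star a * a) η⟩ = ‖ρ a η‖²`. The submodule `{π a ξ}` is dense by `hcyc` (its closure is
closed), so the map extends to a linear isometry `W : K → L` (e.g. `LinearMap.extend`,
`ContinuousLinearMap.extend`, or `DenseInducing`), `W ξ = η` and `W (π a x) = ρ a (W x)` (both sides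
continuous in `x`, equal on `x = π b ξ`).
Hint: one clean way is to work with the linear map `T : A → K`, `a ↦ π a ξ` (dense range) and
`S : A → L`, `a ↦ ρ a η` with `‖S a‖ = ‖T a‖`.
-/

open Filter Topology

namespace P070

universe u v

namespace C

/-- the orbit map -/
private noncomputable def isoT {A : Type} [CStarAlgebra A] {K : Type u} [NormedAddCommGroup K]
    [InnerProductSpace ℂ K] [CompleteSpace K] (π : A →⋆ₐ[ℂ] (K →L[ℂ] K)) (ξ : K) :
    A →ₗ[ℂ] K where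
  toFun a := π a ξ
  map_add' a b := by
    rw [map_add]
    rfl
  map_smul' c a := by
    rw [map_smul]
    rfl

private theorem iso_norm {A : Type} [CStarAlgebra A] {K : Type u} [NormedAddCommGroup K]
    [InnerProductSpace ℂ K] [CompleteSpace K] (π : A →⋆ₐ[ℂ] (K →L[ℂ] K)) (ξ : K) (a : A) :
    ((‖π a ξ‖ ^ 2 : ℝ) : ℂ) = inner ℂ ξ (π (star a * a) ξ) := by
  have h0 : π (star a * a) ξ = ContinuousLinearMap.adjoint (π a) (π a ξ) := by
    rw [map_mul, map_star]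
    rfl
  rw [h0, ContinuousLinearMap.adjoint_inner_right, inner_self_eq_norm_sq_to_K]
  norm_cast

theorem iso_of_state {A : Type} [CStarAlgebra A] {K : Type u} [NormedAddCommGroup K]
    [InnerProductSpace ℂ K] [CompleteSpace K] (π : A →⋆ₐ[ℂ] (K →L[ℂ] K)) (ξ : K)
    (hcyc : ∀ L : Submodule ℂ K, IsClosed (L : Set K) → (∀ a, π a ξ ∈ L) → L = ⊤)
    {L : Type v} [NormedAddCommGroup L] [InnerProductSpace ℂ L] [CompleteSpace L]
    (ρ : A →⋆ₐ[ℂ] (L →L[ℂ] L)) (η : L)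
    (h : ∀ a, inner ℂ ξ (π a ξ) = inner ℂ η (ρ a η)) :
    ∃ W : K →ₗᵢ[ℂ] L, W ξ = η ∧ ∀ a x, W (π a x) = ρ a (W x) := by
  have hnorm : ∀ a, ‖isoT ρ η a‖ = ‖isoT π ξ a‖ := by
    intro a
    have h1 : ((‖ρ a η‖ ^ 2 : ℝ) : ℂ) = ((‖π a ξ‖ ^ 2 : ℝ) : ℂ) := by
      rw [iso_norm, iso_norm, h]
    have h2 : ‖ρ a η‖ ^ 2 = ‖π a ξ‖ ^ 2 := Complex.ofReal_injective h1
    exact (sq_eq_sq₀ (norm_nonneg _) (norm_nonneg _)).1 h2
  have hb : ∀ a, ‖isoT ρ η a‖ ≤ 1 * ‖isoT π ξ a‖ := fun a => by rw [one_mul, hnorm]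
  have hd : DenseRange (isoT π ξ) := by
    have h1 : (LinearMap.range (isoT π ξ)).topologicalClosure = ⊤ := by
      refine hcyc _ (Submodule.isClosed_topologicalClosure _) fun a => ?_
      exact Submodule.le_topologicalClosure _ ⟨a, rfl⟩
    have h2 := Submodule.dense_iff_topologicalClosure_eq_top.2 h1
    exact h2
  have hW : ∀ a, LinearMap.extendOfNorm (isoT ρ η) (isoT π ξ) (π a ξ) = ρ a η := fun a =>
    LinearMap.extendOfNorm_eq hd ⟨1, hb⟩ a
  set W₀ : K →L[ℂ] L := LinearMap.extendOfNorm (isoT ρ η) (isoT π ξ) with hW₀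
  have hn : ∀ x, ‖W₀ x‖ = ‖x‖ := by
    intro x
    refine hd.induction (P := fun x => ‖W₀ x‖ = ‖x‖) ?_
      (isClosed_eq (by fun_prop) (by fun_prop)) x
    rintro _ ⟨a, rfl⟩
    change ‖W₀ (π a ξ)‖ = ‖π a ξ‖
    rw [hW]
    exact hnorm a
  refine ⟨⟨W₀.toLinearMap, hn⟩, ?_, fun a x => ?_⟩
  · have h1 := hW 1
    rw [map_one, map_one] at h1
    exact h1
  · change W₀ (π a x) = ρ a (W₀ x)
    refine hd.induction (P := fun x => W₀ (π a x) = ρ a (W₀ x)) ?_
      (isClosed_eq (by fun_prop) (by fun_prop)) x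
    rintro _ ⟨b, rfl⟩
    change W₀ (π a (π b ξ)) = ρ a (W₀ (π b ξ))
    have h1 : π a (π b ξ) = π (a * b) ξ := by
      rw [map_mul]
      rfl
    rw [h1, hW, hW, map_mul]
    rfl

end C

end P070
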