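import Vale.Agent.Lib.P070.C.Inner
import Vale.Agent.Lib.P070.C.Iso

/-!
# P070 C4, C5: models of rigid germs

`killed_span`: in a model of a rigid germ `g` the killed vectors are the multiples of `ξ`.
Proof: `y = x - ⟨ξ, x⟩ ξ` is killed and `⟨ξ, y⟩ = 0`, so `⟨y, π a ξ⟩ = φ a ⟨y, ξ⟩ = 0` for all `a`
(`killed_inner`); the closed submodule `yᗮ` contains all `π a ξ`, so it is `⊤` and `y = 0`.

`mod_irr`: let `E` be closed and invariant, `P` the orthogonal projection onto `E`; `Eᗮ` is invariant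
(adjoints). `ξ = P ξ + (ξ - P ξ)`; `π (t_k^*) (P ξ) ∈ E`, `π (t_k^*) (ξ - P ξ) ∈ Eᗮ`, sum zero, so
both are zero: `P ξ` is killed, `P ξ = λ ξ`. If `λ ≠ 0` then `ξ ∈ E`, all `π a ξ ∈ E`, `E = ⊤`.
If `λ = 0` then `ξ ∈ Eᗮ`, `Eᗮ = ⊤`, `E = ⊥`.

`mod_embed`: a unit vector `η` killed by `g` in any representation `ρ` gives an isometry `M.K → L`
(`killed_inner` for both and `iso_of_state`).

`irr_cyclic`: in an irreducible representation every nonzero vector is cyclic.

`killed_transfer`: if `ρ` is irreducible on `L` and `x ∈ L` is a nonzero vector killed by the rigid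
germ `g`, then for every model `M` of `g` there is a unitary intertwiner `M.K ≃ L`.
(`mod_embed` at `x / ‖x‖`; the range of the isometry is closed, invariant, nonzero.)
-/

open Filter Topology

namespace P070

universe u v

namespace C

theorem killed_span {A : Type} [CStarAlgebra A] {g : Germ A} (hg : RigidT g) (M : Mod A g)
    (x : M.K) (hx : Killed g M.π x) : x = (inner ℂ M.ξ x : ℂ) • M.ξ := by
  obtain ⟨y, hy⟩ : ∃ y : M.K, y = x - (inner ℂ M.ξ x : ℂ) • M.ξ := ⟨_, rfl⟩
  have hyk : Killed g M.π y := by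
    intro k
    rw [hy, map_sub, map_smul, hx k, M.kill k, smul_zero, sub_zero]
  have h1 : inner ℂ M.ξ y = 0 := by
    rw [hy, inner_sub_right, inner_smul_right, inner_self_eq_norm_sq_to_K, M.norm_ξ]
    simp
  have h2 : inner ℂ y M.ξ = 0 := by
    rw [← inner_conj_symm, h1, map_zero]
  have h3 : (ℂ ∙ y)ᗮ = ⊤ := by
    refine M.cyc _ (Submodule.isClosed_orthogonal _) fun a => ?_
    rw [Submodule.mem_orthogonal_singleton_iff_inner_right, killed_inner hg M.π y M.ξ hyk M.kill a,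
      h2, mul_zero]
  have h4 : y ∈ (ℂ ∙ y)ᗮ := by rw [h3]; exact Submodule.mem_top
  rw [Submodule.mem_orthogonal_singleton_iff_inner_right, inner_self_eq_zero] at h4
  rw [hy] at h4
  exact sub_eq_zero.1 h4

theorem mod_irr {A : Type} [CStarAlgebra A] {g : Germ A} (hg : RigidT g) (M : Mod A g) :
    Irr M.π := by
  intro E hE hinv
  have : CompleteSpace E := hE.completeSpace_coe
  have hinv' : ∀ a, ∀ z ∈ Eᗮ, M.π a z ∈ Eᗮ := by
    intro a z hz
    rw [Submodule.mem_orthogonal] at hz ⊢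
    intro w hw
    have h1 := hz _ (hinv (star a) w hw)
    rw [map_star, ContinuousLinearMap.star_eq_adjoint,
      ContinuousLinearMap.adjoint_inner_left] at h1
    exact h1
  obtain ⟨y, hy, z, hz, hyz⟩ := E.exists_add_mem_mem_orthogonal M.ξ
  have hyk : Killed g M.π y := by
    intro k
    have h1 := M.kill k
    rw [hyz, map_add] at h1
    have h2 := hinv (star (g.t k)) y hy
    have h3 := hinv' (star (g.t k)) z hz
    have h4 : M.π (star (g.t k)) y ∈ Eᗮ := by
      rw [eq_neg_of_add_eq_zero_left h1]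
      exact Submodule.neg_mem _ h3
    have h5 := (Submodule.mem_orthogonal _ _).1 h4 _ h2
    exact inner_self_eq_zero.1 h5
  have hys := killed_span hg M y hyk
  by_cases h0 : (inner ℂ M.ξ y : ℂ) = 0
  · left
    rw [h0, zero_smul] at hys
    rw [hys, zero_add] at hyz
    have h1 : Eᗮ = ⊤ := M.cyc _ (Submodule.isClosed_orthogonal _) fun a =>
      hinv' a _ (by rw [hyz]; exact hz)
    exact (Submodule.orthogonal_eq_top_iff E).1 h1
  · right
    refine M.cyc E hE fun a => hinv a _ ?_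
    have h1 : M.ξ = (inner ℂ M.ξ y : ℂ)⁻¹ • y := by
      rw [eq_comm, inv_smul_eq_iff₀ h0]
      exact hys
    rw [h1]
    exact E.smul_mem _ hy

theorem mod_embed {A : Type} [CStarAlgebra A] {g : Germ A} (hg : RigidT g) (M : Mod A g)
    {L : Type v} [NormedAddCommGroup L] [InnerProductSpace ℂ L] [CompleteSpace L]
    (ρ : A →⋆ₐ[ℂ] (L →L[ℂ] L)) (η : L) (hη : ‖η‖ = 1) (hk : Killed g ρ η) :
    ∃ W : M.K →ₗᵢ[ℂ] L, W M.ξ = η ∧ ∀ a x, W (M.π a x) = ρ a (W x) := by
  refine iso_of_state M.π M.ξ M.cyc ρ η fun a => ?_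
  rw [killed_inner hg M.π M.ξ M.ξ M.kill M.kill a, killed_inner hg ρ η η hk hk a,
    inner_self_eq_norm_sq_to_K, inner_self_eq_norm_sq_to_K, M.norm_ξ, hη]

theorem irr_cyclic {A : Type} [CStarAlgebra A] {L : Type v} [NormedAddCommGroup L]
    [InnerProductSpace ℂ L] [CompleteSpace L] (ρ : A →⋆ₐ[ℂ] (L →L[ℂ] L)) (hρ : Irr ρ)
    (x : L) (hx : x ≠ 0) (E : Submodule ℂ L) (hE : IsClosed (E : Set L))
    (h : ∀ a, ρ a x ∈ E) : E = ⊤ := by
  let R : Submodule ℂ L :=
    { carrier := {w | ∃ a, ρ a x = w}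
      add_mem' := by
        rintro _ _ ⟨a, rfl⟩ ⟨b, rfl⟩
        exact ⟨a + b, by rw [map_add]; rfl⟩
      zero_mem' := ⟨0, by rw [map_zero]; rfl⟩
      smul_mem' := by
        rintro c _ ⟨a, rfl⟩
        exact ⟨c • a, by rw [map_smul]; rfl⟩ }
  have hRE : R ≤ E := by
    rintro _ ⟨a, rfl⟩
    exact h a
  have hFE : R.topologicalClosure ≤ E := Submodule.topologicalClosure_minimal R hRE hE
  have hinv : ∀ a, ∀ w ∈ R.topologicalClosure, ρ a w ∈ R.topologicalClosure := by
    intro a w hw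
    have h1 : (ρ a) '' closure (R : Set L) ⊆ closure ((ρ a) '' (R : Set L)) :=
      image_closure_subset_closure_image (ρ a).continuous
    have h2 : closure ((ρ a) '' (R : Set L)) ⊆ closure (R : Set L) := by
      refine closure_mono ?_
      rintro _ ⟨_, ⟨b, rfl⟩, rfl⟩
      exact ⟨a * b, by rw [map_mul]; rfl⟩
    exact h2 (h1 ⟨w, hw, rfl⟩)
  have hxF : x ∈ R.topologicalClosure :=
    Submodule.le_topologicalClosure R ⟨1, by rw [map_one]; rfl⟩
  rcases hρ R.topologicalClosure (Submodule.isClosed_topologicalClosure R) hinv with h1 | h1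
  · rw [h1, Submodule.mem_bot] at hxF
    exact absurd hxF hx
  · rw [h1] at hFE
    exact top_le_iff.1 hFE

theorem killed_transfer {A : Type} [CStarAlgebra A] {g : Germ A} (hg : RigidT g) (M : Mod A g)
    {L : Type v} [NormedAddCommGroup L] [InnerProductSpace ℂ L] [CompleteSpace L]
    (ρ : A →⋆ₐ[ℂ] (L →L[ℂ] L)) (hρ : Irr ρ) (x : L) (hx : x ≠ 0) (hk : Killed g ρ x) :
    UEq M.π ρ := by
  have hx0 : ‖x‖ ≠ 0 := norm_ne_zero_iff.2 hx
  obtain ⟨η, hη⟩ : ∃ η : L, η = ((‖x‖⁻¹ : ℝ) : ℂ) • x := ⟨_, rfl⟩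
  have hη1 : ‖η‖ = 1 := by
    rw [hη, norm_smul, Complex.norm_real, norm_inv, norm_norm, inv_mul_cancel₀ hx0]
  have hηk : Killed g ρ η := by
    intro k
    rw [hη, map_smul, hk k, smul_zero]
  obtain ⟨W, hW1, hW2⟩ := mod_embed hg M ρ η hη1 hηk
  have hcl : IsClosed ((LinearMap.range W.toLinearMap : Submodule ℂ L) : Set L) := by
    have h1 : ((LinearMap.range W.toLinearMap : Submodule ℂ L) : Set L) = Set.range W := rfl
    rw [h1]
    exact W.isometry.isClosedEmbedding.isClosed_range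
  have hinv : ∀ a, ∀ w ∈ LinearMap.range W.toLinearMap, ρ a w ∈ LinearMap.range W.toLinearMap := by
    rintro a _ ⟨y, rfl⟩
    exact ⟨M.π a y, hW2 a y⟩
  have hsurj : Function.Surjective W := by
    rcases hρ _ hcl hinv with h1 | h1
    · have h2 : η ∈ LinearMap.range W.toLinearMap := ⟨M.ξ, hW1⟩
      rw [h1, Submodule.mem_bot] at h2
      rw [h2, norm_zero] at hη1
      exact absurd hη1 zero_ne_one
    · intro w
      have h2 : w ∈ LinearMap.range W.toLinearMap := by rw [h1]; exact Submodule.mem_top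
      exact h2
  exact ⟨LinearIsometryEquiv.ofSurjective W hsurj, fun a y => hW2 a y⟩

end C

end P070
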