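import Vale.Agent.Lib.P070.C.StarD
import Vale.Agent.Lib.P070.C.Model
import Vale.Agent.Lib.P070.C.Unit

/-!
# P070 C: every irreducible representation of `D` has a `t`-killed vector

`t = S.z S.c₀`. Suppose there is no nonzero `t`-killed vector in `L` (for `ρ ∘ ι`).
(a) For every `c` there is no nonzero `z c`-killed vector `κ`: `ρ (star (w c)) κ` would be
`t`-killed (`star (ι t_k) * star (w c) = star (w c * ι t_k) = star (ι z_k)`) and nonzero.
(b) `ρ ∘ ι` is irreducible: let `E` be closed and invariant under `ρ (ι a)`, all `a`. For `x ∈ E`: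
`ρ (w c) x = lim ∑_{k<n} ρ (w c) ρ (ι t_k) ρ (ι t_k^*) x = lim ∑ ρ (ι z_k) ρ (ι t_k^*) x ∈ E`
(`tendsto_p`), and `ρ (star (w c)) x = lim ∑ ρ (star (w c)) ρ (ι z_k) ρ (ι z_k^*) x`
`= lim ∑ ρ (ι t_k) ρ (ι z_k^*) x ∈ E` (`tendsto_p` for `z c`, by (a)). So
`{d | ρ d and ρ (star d) map E into E}` is a closed star subalgebra containing the generators, it is
`⊤` (`T.gen`) and `E = ⊥` or `⊤`.
(c) Take a unit vector `ξ ∈ L`; the germ property gives a rigid germ `g` with `ξ` `g`-killed.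
`S.full g`: there are `c` and `0 ≠ x ∈ K_c` killed by `g`. `K_c` is irreducible (`mod_irr`), so
`x / ‖x‖` is a cyclic unit vector (`irr_cyclic`) killed by `g`, `ξ` is a unit vector killed by `g`; by
`killed_inner` the vector states agree; `iso_of_state` gives an isometry `V : K_c → L` intertwining
`π_c` and `ρ ∘ ι`. Then `V ξ_c` is a unit vector killed by `z c`,
contradicting (a).
-/

open Filter Topology

namespace P070

universe u v

namespace C

section Aux

variable {D : Type} [CStarAlgebra D] {L : Type v} [NormedAddCommGroup L] [InnerProductSpace ℂ L]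
  [CompleteSpace L]

/-- the elements leaving `E` invariant together with their adjoints -/
private def case2F (ρ : D →⋆ₐ[ℂ] (L →L[ℂ] L)) (E : Submodule ℂ L) : StarSubalgebra ℂ D where
  carrier := {d | (∀ x ∈ E, ρ d x ∈ E) ∧ ∀ x ∈ E, ρ (star d) x ∈ E}
  mul_mem' := by
    rintro a b ⟨ha, ha'⟩ ⟨hb, hb'⟩
    refine ⟨fun x hx => ?_, fun x hx => ?_⟩
    · rw [map_mul]
      exact ha _ (hb x hx)
    · rw [star_mul, map_mul]
      exact hb' _ (ha' x hx)
  add_mem' := by
    rintro a b ⟨ha, ha'⟩ ⟨hb, hb'⟩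
    refine ⟨fun x hx => ?_, fun x hx => ?_⟩
    · rw [map_add]
      exact E.add_mem (ha x hx) (hb x hx)
    · rw [star_add, map_add]
      exact E.add_mem (ha' x hx) (hb' x hx)
  algebraMap_mem' := by
    intro r
    refine ⟨fun x hx => ?_, fun x hx => ?_⟩
    · rw [Algebra.algebraMap_eq_smul_one, map_smul, map_one]
      exact E.smul_mem r hx
    · rw [Algebra.algebraMap_eq_smul_one, star_smul, star_one, map_smul, map_one]
      exact E.smul_mem (star r) hx
  star_mem' := by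
    rintro a ⟨ha, ha'⟩
    refine ⟨ha', fun x hx => ?_⟩
    rw [star_star]
    exact ha x hx

private theorem case2F_closed (ρ : D →⋆ₐ[ℂ] (L →L[ℂ] L)) (E : Submodule ℂ L)
    (hE : IsClosed (E : Set L)) : IsClosed (case2F ρ E : Set D) := by
  have hρ : Continuous ρ := AddMonoidHomClass.continuous_of_bound ρ 1 fun a => by
    rw [one_mul]
    exact NonUnitalStarAlgHom.norm_apply_le ρ a
  have h : (case2F ρ E : Set D) = (⋂ x ∈ E, {d | ρ d x ∈ E}) ∩ ⋂ x ∈ E, {d | ρ (star d) x ∈ E} := by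
    ext d
    simp only [Set.mem_inter_iff, Set.mem_iInter]
    exact Iff.rfl
  rw [h]
  refine (isClosed_biInter fun x _ => ?_).inter (isClosed_biInter fun x _ => ?_)
  · exact hE.preimage (hρ.clm_apply continuous_const)
  · exact hE.preimage ((hρ.comp continuous_star).clm_apply continuous_const)

end Aux

theorem case2 {A : Type} [CStarAlgebra A] (hG : GermProp.{v} A) (S : Sys A) [DecidableEq S.C]
    (T : Star S) {L : Type v}
    [NormedAddCommGroup L] [InnerProductSpace ℂ L] [CompleteSpace L] [Nontrivial L]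
    (ρ : T.D →⋆ₐ[ℂ] (L →L[ℂ] L)) (hρ : Irr ρ) :
    ∃ η : L, ‖η‖ = 1 ∧ Killed (S.z S.c₀) (ρ.comp T.ι) η := by
  by_contra hno
  have hunit : ∀ {g : Germ A} {V : Type} [NormedAddCommGroup V] [InnerProductSpace ℂ V]
      [CompleteSpace V] (π : A →⋆ₐ[ℂ] (V →L[ℂ] V)) (x : V), Killed g π x → ∀ c : ℂ,
      Killed g π (c • x) := by
    intro g V _ _ _ π x hx c k
    rw [map_smul, hx k, smul_zero]
  have happ : ∀ a b : T.D, ∀ x, ρ (a * b) x = ρ a (ρ b x) := by
    intro a b x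
    rw [map_mul]
    rfl
  -- no killed vector
  have h0 : ∀ x, Killed (S.z S.c₀) (ρ.comp T.ι) x → x = 0 := by
    intro x hx
    by_contra hx0
    have hx1 : ‖x‖ ≠ 0 := norm_ne_zero_iff.2 hx0
    refine hno ⟨((‖x‖⁻¹ : ℝ) : ℂ) • x, ?_, fun k => ?_⟩
    · rw [norm_smul, Complex.norm_real, norm_inv, norm_norm, inv_mul_cancel₀ hx1]
    · rw [map_smul, hx k, smul_zero]
  -- (a)
  have ha : ∀ c x, Killed (S.z c) (ρ.comp T.ι) x → x = 0 := by
    intro c x hx
    have h1 : ρ (star (T.w c)) x = 0 := by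
      refine h0 _ fun k => ?_
      change ρ (T.ι (star ((S.z S.c₀).t k))) (ρ (star (T.w c)) x) = 0
      rw [← happ, map_star, ← star_mul, T.hwt, ← map_star]
      exact hx k
    have h2 : ρ (T.w c) (ρ (star (T.w c)) x) = x := by
      rw [← happ, Unitary.mul_star_self_of_mem (T.hw c), map_one]
      rfl
    rw [← h2, h1, map_zero]
  -- (b)
  have hirr : Irr (ρ.comp T.ι) := by
    intro E hE hinv
    have hsum : ∀ (a b : ℕ → A) (x : L), x ∈ E → ∀ n,
        ∑ k ∈ Finset.range n, ρ (T.ι (a k)) (ρ (T.ι (b k)) x) ∈ E := by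
      intro a b x hx n
      exact E.sum_mem fun k _ => hinv _ _ (hinv _ _ hx)
    have hw1 : ∀ c, ∀ x ∈ E, ρ (T.w c) x ∈ E := by
      intro c x hx
      have h1 := tendsto_p (S.z S.c₀) (ρ.comp T.ι) h0 x
      have h2 := ((ρ (T.w c)).continuous.tendsto _).comp h1
      refine hE.mem_of_tendsto h2 (Eventually.of_forall fun n => ?_)
      rw [Function.comp_apply, map_sum]
      have h3 : ∀ k ∈ Finset.range n, ρ (T.w c) ((ρ.comp T.ι) ((S.z S.c₀).t k)
          ((ρ.comp T.ι) (star ((S.z S.c₀).t k)) x)) =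
          ρ (T.ι ((S.z c).t k)) (ρ (T.ι (star ((S.z S.c₀).t k))) x) := by
        intro k _
        rw [← T.hwt c k, happ]
        rfl
      rw [Finset.sum_congr rfl h3]
      exact hsum _ _ x hx n
    have hw2 : ∀ c, ∀ x ∈ E, ρ (star (T.w c)) x ∈ E := by
      intro c x hx
      have h1 := tendsto_p (S.z c) (ρ.comp T.ι) (ha c) x
      have h2 := ((ρ (star (T.w c))).continuous.tendsto _).comp h1
      refine hE.mem_of_tendsto h2 (Eventually.of_forall fun n => ?_)
      rw [Function.comp_apply, map_sum]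
      have h3 : ∀ k ∈ Finset.range n, ρ (star (T.w c)) ((ρ.comp T.ι) ((S.z c).t k)
          ((ρ.comp T.ι) (star ((S.z c).t k)) x)) =
          ρ (T.ι ((S.z S.c₀).t k)) (ρ (T.ι (star ((S.z c).t k))) x) := by
        intro k _
        change ρ (star (T.w c)) (ρ (T.ι ((S.z c).t k)) _) = _
        rw [← T.hwt c k, ← happ, ← mul_assoc, Unitary.star_mul_self_of_mem (T.hw c), one_mul]
        rfl
      rw [Finset.sum_congr rfl h3]
      exact hsum _ _ x hx n
    have htop := T.gen (case2F ρ E) (case2F_closed ρ E hE)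
      (fun a => ⟨fun x hx => hinv a x hx, fun x hx => by
        rw [← map_star]
        exact hinv (star a) x hx⟩)
      (fun c => ⟨hw1 c, hw2 c⟩)
    refine hρ E hE fun d x hx => ?_
    have h1 : d ∈ case2F ρ E := by rw [htop]; trivial
    exact h1.1 x hx
  -- (c)
  obtain ⟨ξ₀, hξ₀⟩ := exists_ne (0 : L)
  have hξ₁ : ‖ξ₀‖ ≠ 0 := norm_ne_zero_iff.2 hξ₀
  obtain ⟨ξ, hξ⟩ : ∃ ξ : L, ‖ξ‖ = 1 := ⟨((‖ξ₀‖⁻¹ : ℝ) : ℂ) • ξ₀, by
    rw [norm_smul, Complex.norm_real, norm_inv, norm_norm, inv_mul_cancel₀ hξ₁]⟩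
  obtain ⟨g, hg, hgk⟩ := hG L (ρ.comp T.ι) hirr ξ hξ
  obtain ⟨c, x, hx, hxk⟩ := S.full g hg
  have hx1 : ‖x‖ ≠ 0 := norm_ne_zero_iff.2 hx
  obtain ⟨x', hx'⟩ : ∃ x', x' = ((‖x‖⁻¹ : ℝ) : ℂ) • x := ⟨_, rfl⟩
  have hxn : ‖x'‖ = 1 := by
    rw [hx', norm_smul, Complex.norm_real, norm_inv, norm_norm, inv_mul_cancel₀ hx1]
  have hxk' : Killed g (S.M c).π x' := by
    rw [hx']
    exact hunit _ _ hxk _
  have hx0' : x' ≠ 0 := by
    intro h
    rw [h, norm_zero] at hxn
    exact zero_ne_one hxn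
  obtain ⟨W, -, hW⟩ := iso_of_state (S.M c).π x'
    (fun E hE h => irr_cyclic _ (mod_irr (S.rig c) (S.M c)) x' hx0' E hE h) (ρ.comp T.ι) ξ
    fun a => by
      rw [killed_inner hg (S.M c).π x' x' hxk' hxk' a, killed_inner hg (ρ.comp T.ι) ξ ξ hgk hgk a,
        inner_self_eq_norm_sq_to_K, inner_self_eq_norm_sq_to_K, hxn, hξ]
  have h1 : W (S.M c).ξ = 0 := by
    refine ha c _ fun k => ?_
    rw [← hW, (S.M c).kill k, map_zero]
  have h2 := W.norm_map (S.M c).ξ
  rw [h1, norm_zero, (S.M c).norm_ξ] at h2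
  exact zero_ne_one h2

end C

end P070
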