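import Vale.Agent.Lib.P070.C.Base

/-!
# P070 C8: the direct sum representation on `H = ⊕_c K_c`

For `a : A` and `x : H = lp (fun c => K_c) 2` let `(Π a x) c = π_c(a) (x c)`; `‖π_c(a)‖ ≤ ‖a‖`, so
the family is again in `lp` and `‖Π a x‖ ≤ ‖a‖ ‖x‖`. `Π` is a unital star algebra homomorphism
(`⟨Π a x, y⟩ = ∑' c, ⟨π_c(a) x_c, y_c⟩`, `lp.inner_eq_tsum`).
-/

open Filter Topology

namespace P070

universe u v

namespace C

theorem Diag_le {A : Type} [CStarAlgebra A] (S : Sys A) (a : A) (c : S.C) (x : (S.M c).K) :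
    ‖(S.M c).π a x‖ ≤ ‖a‖ * ‖x‖ :=
  ((S.M c).π a).le_of_opNorm_le (NonUnitalStarAlgHom.norm_apply_le (S.M c).π a) x

theorem Diag_two : (0 : ℝ) < (2 : ENNReal).toReal := by norm_num

theorem Diag_mem {A : Type} [CStarAlgebra A] (S : Sys A) (a : A) (x : S.H) :
    Memℓp (fun c => (S.M c).π a (x c)) 2 := by
  have hx := (lp.memℓp x).summable Diag_two
  refine memℓp_gen ?_
  refine Summable.of_nonneg_of_le (fun c => by positivity) (fun c => ?_)
    (hx.mul_left (‖a‖ ^ (2 : ENNReal).toReal))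
  rw [← Real.mul_rpow (norm_nonneg _) (norm_nonneg _)]
  exact Real.rpow_le_rpow (norm_nonneg _) (Diag_le S a c (x c)) Diag_two.le

noncomputable def Diag_lin {A : Type} [CStarAlgebra A] (S : Sys A) (a : A) : S.H →ₗ[ℂ] S.H where
  toFun x := ⟨fun c => (S.M c).π a (x c), Diag_mem S a x⟩
  map_add' x y := by
    ext c
    simp
    rfl
  map_smul' r x := by
    ext c
    simp

theorem Diag_lin_apply {A : Type} [CStarAlgebra A] (S : Sys A) (a : A) (x : S.H) (c : S.C) :
    (Diag_lin S a x : ∀ c, (S.M c).K) c = (S.M c).π a (x c) := rfl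

theorem Diag_norm {A : Type} [CStarAlgebra A] (S : Sys A) (a : A) (x : S.H) :
    ‖Diag_lin S a x‖ ≤ ‖a‖ * ‖x‖ := by
  have h1 := lp.norm_rpow_eq_tsum Diag_two (Diag_lin S a x)
  have h2 := lp.norm_rpow_eq_tsum Diag_two x
  have h3 : ‖Diag_lin S a x‖ ^ (2 : ENNReal).toReal ≤ (‖a‖ * ‖x‖) ^ (2 : ENNReal).toReal := by
    rw [h1, Real.mul_rpow (norm_nonneg _) (norm_nonneg _), h2, ← tsum_mul_left]
    refine Summable.tsum_le_tsum (fun c => ?_) ((lp.memℓp (Diag_lin S a x)).summable Diag_two)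
      (((lp.memℓp x).summable Diag_two).mul_left _)
    rw [← Real.mul_rpow (norm_nonneg _) (norm_nonneg _)]
    exact Real.rpow_le_rpow (norm_nonneg _) (Diag_le S a c (x c)) Diag_two.le
  exact (Real.rpow_le_rpow_iff (norm_nonneg _) (by positivity) Diag_two).1 h3

noncomputable def Diag_clm {A : Type} [CStarAlgebra A] (S : Sys A) (a : A) : S.H →L[ℂ] S.H :=
  (Diag_lin S a).mkContinuous ‖a‖ (Diag_norm S a)

theorem Diag_clm_apply {A : Type} [CStarAlgebra A] (S : Sys A) (a : A) (x : S.H) (c : S.C) :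
    (Diag_clm S a x : ∀ c, (S.M c).K) c = (S.M c).π a (x c) := rfl

theorem Diag_star {A : Type} [CStarAlgebra A] (S : Sys A) (a : A) :
    Diag_clm S (star a) = star (Diag_clm S a) := by
  rw [ContinuousLinearMap.star_eq_adjoint, ContinuousLinearMap.eq_adjoint_iff]
  intro x y
  rw [lp.inner_eq_tsum, lp.inner_eq_tsum]
  refine tsum_congr fun c => ?_
  rw [Diag_clm_apply, Diag_clm_apply, map_star, ContinuousLinearMap.star_eq_adjoint,
    ContinuousLinearMap.adjoint_inner_left]

theorem exists_diag {A : Type} [CStarAlgebra A] (S : Sys A) :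
    ∃ P : A →⋆ₐ[ℂ] (S.H →L[ℂ] S.H), ∀ (a : A) (x : S.H) (c : S.C),
      (P a x : ∀ c, (S.M c).K) c = (S.M c).π a (x c) := by
  refine ⟨{ toFun := Diag_clm S
            map_one' := ?_
            map_mul' := ?_
            map_zero' := ?_
            map_add' := ?_
            commutes' := ?_
            map_star' := Diag_star S }, fun a x c => Diag_clm_apply S a x c⟩
  · ext x c
    rw [Diag_clm_apply]
    simp
  · intro a b
    ext x c
    rw [Diag_clm_apply]
    simp [Diag_clm_apply]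
  · ext x c
    rw [Diag_clm_apply]
    simp
  · intro a b
    ext x c
    rw [Diag_clm_apply]
    simp [Diag_clm_apply]
  · intro r
    ext x c
    rw [Diag_clm_apply]
    simp [Algebra.algebraMap_eq_smul_one]

end C

end P070
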