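import Vale.Agent.Lib.P070.C.StarD

/-!
# P070 C: `D` acts irreducibly on `H`

Let `E` be closed and `D`-invariant, `Eᗮ` is invariant too (adjoints). Write `e₀ = S.e S.c₀ = a + b`,
`a ∈ E`, `b ∈ Eᗮ` (orthogonal projection). `e₀` is `t`-killed (`killed_e`), so `π (ι t_k^*) a ∈ E` and
`π (ι t_k^*) b ∈ Eᗮ` have sum zero: `a` is `t`-killed, `a = λ e₀` (`killed_H`). If `λ ≠ 0`, `e₀ ∈ E`;
if `λ = 0`, `e₀ ∈ Eᗮ`. A closed `D`-invariant `F` containing `e₀` is `⊤`: it contains
`e_c = π (w c) e₀` and `π (ι a) e_c = lp.single 2 c (π_c(a) ξ_c)` (`Q_e`); for fixed `c` the set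
`{x ∈ K_c | lp.single 2 c x ∈ F}` is a closed submodule containing all `π_c(a) ξ_c`, so it is `⊤`
(`(S.M c).cyc`); finite sums of `lp.single` are dense in `H`.
-/

open Filter Topology

namespace P070

universe u v

namespace C

private theorem irrH_top {A : Type} [CStarAlgebra A] (S : Sys A) [DecidableEq S.C] (T : Star S)
    (F : Submodule ℂ S.H) (hF : IsClosed (F : Set S.H)) (hinv : ∀ a, ∀ x ∈ F, T.π a x ∈ F)
    (he : S.e S.c₀ ∈ F) : F = ⊤ := by
  have hec : ∀ c, S.e c ∈ F := by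
    intro c
    rw [← T.hπw c]
    exact hinv _ _ he
  have hsing : ∀ (c : S.C) (x : (S.M c).K), (lp.single 2 c x : S.H) ∈ F := by
    intro c x
    let G : Submodule ℂ (S.M c).K :=
      F.comap (lp.lsingle (𝕜 := ℂ) (E := fun c => (S.M c).K) 2 c)
    have hG : IsClosed (G : Set (S.M c).K) := by
      have h1 : Continuous (fun x : (S.M c).K => (lp.single 2 c x : S.H)) :=
        (lp.isometry_single (E := fun c => (S.M c).K) (p := 2) c).continuous
      exact hF.preimage h1
    have hG2 : G = ⊤ := by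
      refine (S.M c).cyc G hG fun a => ?_
      change (lp.single 2 c ((S.M c).π a (S.M c).ξ) : S.H) ∈ F
      rw [← Q_e S (T.π.comp T.ι) (fun a x c => T.hπ a x c) a c (S.M c).ξ]
      exact hinv (T.ι a) _ (hec c)
    have h2 : x ∈ G := by
      rw [hG2]
      exact Submodule.mem_top
    exact h2
  rw [Submodule.eq_top_iff']
  intro y
  have h1 : HasSum (fun c => (lp.single 2 c (y c) : S.H)) y :=
    lp.hasSum_single (by norm_num) y
  refine hF.mem_of_tendsto h1 (Eventually.of_forall fun s => ?_)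
  exact Submodule.sum_mem F fun c _ => hsing c (y c)

theorem irr_H {A : Type} [CStarAlgebra A] (S : Sys A) [DecidableEq S.C] (T : Star S) :
    Irr T.π := by
  intro E hE hinv
  have : CompleteSpace E := hE.completeSpace_coe
  have hinv' : ∀ a, ∀ z ∈ Eᗮ, T.π a z ∈ Eᗮ := by
    intro a z hz
    rw [Submodule.mem_orthogonal] at hz ⊢
    intro w hw
    have h1 := hz _ (hinv (star a) w hw)
    rw [map_star, ContinuousLinearMap.star_eq_adjoint,
      ContinuousLinearMap.adjoint_inner_left] at h1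
    exact h1
  have hQ : ∀ (a : A) (x : S.H) (c : S.C),
      ((T.π.comp T.ι) a x : ∀ c, (S.M c).K) c = (S.M c).π a (x c) := fun a x c => T.hπ a x c
  obtain ⟨y, hy, z, hz, hyz⟩ := E.exists_add_mem_mem_orthogonal (S.e S.c₀)
  have hyk : Killed (S.z S.c₀) (T.π.comp T.ι) y := by
    intro k
    have h1 := killed_e S (T.π.comp T.ι) hQ S.c₀ k
    rw [hyz, map_add] at h1
    have h2 : (T.π.comp T.ι) (star ((S.z S.c₀).t k)) y ∈ E := hinv _ y hy
    have h3 : (T.π.comp T.ι) (star ((S.z S.c₀).t k)) z ∈ Eᗮ := hinv' _ z hz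
    have h4 : (T.π.comp T.ι) (star ((S.z S.c₀).t k)) y ∈ Eᗮ := by
      rw [eq_neg_of_add_eq_zero_left h1]
      exact Submodule.neg_mem _ h3
    have h5 := (Submodule.mem_orthogonal _ _).1 h4 _ h2
    exact inner_self_eq_zero.1 h5
  have hys := killed_H S (T.π.comp T.ι) hQ S.c₀ y hyk
  by_cases h0 : (inner ℂ (S.e S.c₀) y : ℂ) = 0
  · left
    rw [h0, zero_smul] at hys
    rw [hys, zero_add] at hyz
    have h1 : Eᗮ = ⊤ := irrH_top S T Eᗮ (Submodule.isClosed_orthogonal _) hinv'
      (by rw [hyz]; exact hz)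
    exact (Submodule.orthogonal_eq_top_iff E).1 h1
  · right
    refine irrH_top S T E hE hinv ?_
    have h1 : S.e S.c₀ = (inner ℂ (S.e S.c₀) y : ℂ)⁻¹ • y := by
      rw [eq_comm, inv_smul_eq_iff₀ h0]
      exact hys
    rw [h1]
    exact E.smul_mem _ hy

end C

end P070
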