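import Vale.Agent.Lib.P070.C.StarD
import Vale.Agent.Lib.P070.C.Diag
import Vale.Agent.Lib.P070.C.Unit

/-!
# P070 C: existence of the final algebra

`P` from `exists_diag`; for each `c` a unitary `w c` on `H` from `exists_unitary` with
`t = S.z S.c₀`, `z = S.z c`, `ξ = S.e S.c₀`, `η = S.e c` (hypotheses from `norm_e`, `killed_e`,
`killed_H`), and `w c₀ = 1` (define `w c` by cases `c = c₀`). `D0 = (StarAlgebra.adjoin ℂ (Set.range P ∪ Set.range w)).topologicalClosure`, a closed
star subalgebra of `B(H)`, hence a C*-algebra (`StarSubalgebra` instance with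
`IsClosed (D0 : Set _)`, see `Mathlib.Analysis.CStarAlgebra.Classes`); `ι`, `w` are the
corestrictions, `π` the inclusion. `gen`: the image in `B(H)` of a closed star subalgebra `F` of `D0`
containing the generators is a closed star subalgebra (`Subtype.val` is an isometry with closed
range) containing `range P ∪ range w`, so it contains `D0`.
-/

open Filter Topology

namespace P070

universe u v

namespace C

/-- the unitaries `w c` -/
theorem StarE_unitary {A : Type} [CStarAlgebra A] (S : Sys A) [DecidableEq S.C]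
    (P : A →⋆ₐ[ℂ] (S.H →L[ℂ] S.H))
    (hP : ∀ (a : A) (x : S.H) (c : S.C), (P a x : ∀ c, (S.M c).K) c = (S.M c).π a (x c))
    (c : S.C) : ∃ w : S.H →L[ℂ] S.H, w ∈ unitary (S.H →L[ℂ] S.H) ∧
      (∀ k, w * P ((S.z S.c₀).t k) = P ((S.z c).t k)) ∧ w (S.e S.c₀) = S.e c ∧
      (c = S.c₀ → w = 1) := by
  by_cases hc : c = S.c₀
  · subst hc
    exact ⟨1, one_mem _, fun k => one_mul _, rfl, fun _ => rfl⟩
  · obtain ⟨w, h1, h2, h3⟩ := exists_unitary (S.z S.c₀) (S.z c) P (S.e S.c₀) (S.e c)
      (norm_e S _) (norm_e S _) (killed_e S P hP _) (killed_e S P hP _)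
      (fun x hx => killed_H S P hP _ x hx) (fun x hx => killed_H S P hP _ x hx)
    exact ⟨w, h1, h2, h3, fun h => absurd h hc⟩

/-- a closed star subalgebra of the closed star algebra generated by a set which contains the set
is everything -/
theorem StarE_gen {B : Type*} [CStarAlgebra B] (D0 : StarSubalgebra ℂ B) (s : Set B)
    (hD : D0 = (StarAlgebra.adjoin ℂ s).topologicalClosure)
    (F : StarSubalgebra ℂ D0) (hF : IsClosed (F : Set D0))
    (h : ∀ x : D0, (x : B) ∈ s → x ∈ F) (hs : ∀ x ∈ s, x ∈ D0) : F = ⊤ := by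
  have hcl : IsClosed (D0 : Set B) := by
    rw [hD]
    exact StarSubalgebra.isClosed_topologicalClosure _
  have h1 : IsClosed ((F.map D0.subtype : StarSubalgebra ℂ B) : Set B) := by
    have h2 := hcl.isClosedEmbedding_subtypeVal.isClosedMap _ hF
    exact h2
  have h3 : StarAlgebra.adjoin ℂ s ≤ F.map D0.subtype := by
    rw [StarAlgebra.adjoin_le_iff]
    intro x hx
    exact ⟨⟨x, hs x hx⟩, h ⟨x, hs x hx⟩ hx, rfl⟩
  have h4 : D0 ≤ F.map D0.subtype :=
    hD.le.trans (StarSubalgebra.topologicalClosure_minimal h3 h1)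
  refine eq_top_iff.2 fun x _ => ?_
  obtain ⟨y, hy, hyx⟩ := h4 x.2
  have h5 : y = x := Subtype.ext hyx
  rw [← h5]
  exact hy

theorem exists_star {A : Type} [CStarAlgebra A] (S : Sys A) [DecidableEq S.C] :
    Nonempty (Star S) := by
  obtain ⟨P, hP⟩ := exists_diag S
  choose w hw1 hw2 hw3 hw4 using StarE_unitary S P hP
  obtain ⟨D0, hD⟩ : ∃ D0 : StarSubalgebra ℂ (S.H →L[ℂ] S.H),
      D0 = (StarAlgebra.adjoin ℂ (Set.range P ∪ Set.range w)).topologicalClosure := ⟨_, rfl⟩
  have hcl : IsClosed (D0 : Set (S.H →L[ℂ] S.H)) := by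
    rw [hD]
    exact StarSubalgebra.isClosed_topologicalClosure _
  have hs : ∀ x ∈ Set.range P ∪ Set.range w, x ∈ D0 := by
    intro x hx
    rw [hD]
    exact StarSubalgebra.le_topologicalClosure _ (StarAlgebra.subset_adjoin ℂ _ hx)
  have hPm : ∀ a, P a ∈ D0 := fun a => hs _ (Or.inl ⟨a, rfl⟩)
  have hwm : ∀ c, w c ∈ D0 := fun c => hs _ (Or.inr ⟨c, rfl⟩)
  refine ⟨{ D := D0
            ι := P.codRestrict D0 hPm
            w := fun c => ⟨w c, hwm c⟩
            hw := ?_
            hw0 := ?_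
            hwt := ?_
            gen := ?_
            π := D0.subtype
            hπ := ?_
            hπw := ?_ }⟩
  · intro c
    rw [Unitary.mem_iff]
    have h1 := Unitary.mem_iff.1 (hw1 c)
    exact ⟨Subtype.ext h1.1, Subtype.ext h1.2⟩
  · exact Subtype.ext (hw4 _ rfl)
  · intro c k
    exact Subtype.ext (hw2 c k)
  · intro F hF h1 h2
    refine StarE_gen D0 _ hD F hF (fun x hx => ?_) hs
    rcases hx with ⟨a, ha⟩ | ⟨c, hc⟩
    · have h3 : x = (P.codRestrict D0 hPm) a := Subtype.ext ha.symm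
      rw [h3]
      exact h1 a
    · have h3 : x = ⟨w c, hwm c⟩ := Subtype.ext hc.symm
      rw [h3]
      exact h2 c
  · intro a x c
    exact hP a x c
  · intro c
    exact hw3 c

end C

end P070
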