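import Vale.Agent.Lib.P070.C.SysE
import Vale.Agent.Lib.P070.C.StarE
import Vale.Agent.Lib.P070.C.Case1
import Vale.Agent.Lib.P070.C.Case2
import Vale.Agent.Lib.P070.C.IrrH

/-!
# P070 C: assembly
-/

open Filter Topology

namespace P070

universe u v

namespace C

theorem all_equiv {A : Type} [CStarAlgebra A] (hG : GermProp.{v} A) (S : Sys A) [DecidableEq S.C]
    (T : Star S) {L : Type v}
    [NormedAddCommGroup L] [InnerProductSpace ℂ L] [CompleteSpace L] [Nontrivial L]
    (ρ : T.D →⋆ₐ[ℂ] (L →L[ℂ] L)) (hρ : Irr ρ) : UEq T.π ρ := by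
  obtain ⟨η, hη, hk⟩ := case2 hG S T ρ hρ
  obtain ⟨W, hW⟩ := case1 S T ρ η hη hk
  -- the range of W
  let E : Submodule ℂ L := LinearMap.range W.toLinearMap
  have hE : IsClosed (E : Set L) := by
    have h1 := W.isometry.isClosedEmbedding.isClosed_range
    have h2 : (E : Set L) = Set.range W := by
      ext y
      simp [E]
    rw [h2]
    exact h1
  have hinv : ∀ a, ∀ x ∈ E, ρ a x ∈ E := by
    rintro a _ ⟨x, rfl⟩
    exact ⟨T.π a x, by simpa using hW a x⟩
  have htop : E = ⊤ := by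
    rcases hρ E hE hinv with h | h
    · exfalso
      have h1 : W (S.e S.c₀) ∈ E := ⟨S.e S.c₀, rfl⟩
      rw [h, Submodule.mem_bot] at h1
      have h2 := norm_e S S.c₀
      rw [← W.norm_map, h1, norm_zero] at h2
      exact zero_ne_one h2
    · exact h
  have hsurj : Function.Surjective W := by
    intro y
    have : y ∈ E := by rw [htop]; trivial
    obtain ⟨x, hx⟩ := this
    exact ⟨x, by simpa using hx⟩
  refine ⟨LinearIsometryEquiv.ofSurjective W hsurj, fun a x => ?_⟩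
  simpa using hW a x

theorem partC.{u', v'} : PartC.{u', v'} := by
  intro A _ hn hs hg hG1 hG2
  obtain ⟨S⟩ := exists_sys hg
  classical
  obtain ⟨T⟩ := exists_star S
  refine ⟨T.D, T.iD, ?_, S.H, inferInstance, inferInstance, inferInstance, T.π, ?_, irr_H S T,
    fun L _ _ _ _ ρ hρ => all_equiv hG1 S T ρ hρ, fun L _ _ _ _ ρ hρ => all_equiv hG2 S T ρ hρ⟩
  · refine ⟨T.ι ((S.z S.c₀).t 0), ?_, ?_⟩
    · rw [← map_star, ← map_mul, (S.z S.c₀).orth 0 0, if_pos rfl, map_one]
    · intro h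
      have hk : T.π (T.ι (star ((S.z S.c₀).t 0))) (S.e S.c₀) = 0 :=
        killed_e S (T.π.comp T.ι) T.hπ S.c₀ 0
      have h3 : T.π (T.ι ((S.z S.c₀).t 0) * star (T.ι ((S.z S.c₀).t 0))) (S.e S.c₀) = S.e S.c₀ := by
        rw [h, map_one]
        rfl
      rw [map_mul, ← map_star T.ι] at h3
      have h4 : (T.π (T.ι ((S.z S.c₀).t 0)) * T.π (T.ι (star ((S.z S.c₀).t 0)))) (S.e S.c₀) =
          T.π (T.ι ((S.z S.c₀).t 0)) (T.π (T.ι (star ((S.z S.c₀).t 0))) (S.e S.c₀)) := rfl
      rw [h4, hk, map_zero] at h3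
      have h5 := norm_e S S.c₀
      rw [← h3, norm_zero] at h5
      exact zero_ne_one h5
  · refine ⟨S.e S.c₀, 0, fun h => ?_⟩
    have h2 := norm_e S S.c₀
    rw [h, norm_zero] at h2
    exact zero_ne_one h2

end C

end P070
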