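import Vale.Agent.Lib.P070.C.Phi

/-!
# P070 C2b: existence of a model (GNS construction of Mathlib for `phi`)

Use `Mathlib/Analysis/CStarAlgebra/GelfandNaimarkSegal.lean`: with the local instances
`CStarAlgebra.spectralOrder`, `CStarAlgebra.spectralOrderedRing` on `A` make
`f : A →ₚ[ℂ] ℂ` from `phi hg` (linear by `phi_add`, `phi_smul`; positive because every `0 ≤ x` is
`star a * a` (`CStarAlgebra.nonneg_iff_eq_star_mul_self`) and `phi_pos`; complex order), `K = f.GNS`,
`π = f.gnsStarAlgHom`, `ξ` = the class of `1` (`‖ξ‖² = f 1 = 1`). Killed: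
`‖π (star t_k) ξ‖² = f (t_k * star t_k) = 0`. Cyclic: `π a ξ` is the class of `a`, and these classes
are dense in the completion.
-/

open Filter Topology

namespace P070

universe u v

namespace C

attribute [local instance] CStarAlgebra.spectralOrder CStarAlgebra.spectralOrderedRing

open scoped ComplexOrder InnerProductSpace

/-- the functional `phi` as a linear map -/
noncomputable def GNS_lin {A : Type} [CStarAlgebra A] [Nontrivial A] {g : Germ A}
    (hg : RigidT g) : A →ₗ[ℂ] ℂ where
  toFun := phi hg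
  map_add' := phi_add hg
  map_smul' := fun c a => by simpa using phi_smul hg c a

/-- the functional `phi` as a positive linear map -/
noncomputable def GNS_pos {A : Type} [CStarAlgebra A] [Nontrivial A] {g : Germ A}
    (hg : RigidT g) : A →ₚ[ℂ] ℂ :=
  PositiveLinearMap.mk₀ (GNS_lin hg) (by
    intro x hx
    obtain ⟨a, rfl⟩ := CStarAlgebra.nonneg_iff_eq_star_mul_self.mp hx
    obtain ⟨r, hr, h⟩ := phi_pos hg a
    change (0 : ℂ) ≤ phi hg (star a * a)
    rw [h]
    exact_mod_cast hr)

theorem GNS_pos_apply {A : Type} [CStarAlgebra A] [Nontrivial A] {g : Germ A}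
    (hg : RigidT g) (a : A) : GNS_pos hg a = phi hg a := rfl

theorem GNS_norm_coe {A : Type} [CStarAlgebra A] [Nontrivial A] {g : Germ A}
    (hg : RigidT g) (a : A) :
    ((‖(((GNS_pos hg).toPreGNS a : (GNS_pos hg).PreGNS) : (GNS_pos hg).GNS)‖ ^ 2 : ℝ) : ℂ)
      = phi hg (star a * a) := by
  rw [UniformSpace.Completion.norm_coe]
  have h := (GNS_pos hg).preGNS_norm_sq ((GNS_pos hg).toPreGNS a)
  rw [Complex.ofReal_pow, h, PositiveLinearMap.ofPreGNS_toPreGNS, GNS_pos_apply]

theorem GNS_pi_coe {A : Type} [CStarAlgebra A] [Nontrivial A] {g : Germ A}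
    (hg : RigidT g) (a b : A) :
    (GNS_pos hg).gnsStarAlgHom a
        (((GNS_pos hg).toPreGNS b : (GNS_pos hg).PreGNS) : (GNS_pos hg).GNS)
      = (((GNS_pos hg).toPreGNS (a * b) : (GNS_pos hg).PreGNS) : (GNS_pos hg).GNS) := by
  have h := (GNS_pos hg).gnsNonUnitalStarAlgHom_apply_coe (a := a)
    (b := (GNS_pos hg).toPreGNS b)
  rw [PositiveLinearMap.leftMulMapPreGNS_apply] at h
  exact h

theorem exists_mod {A : Type} [CStarAlgebra A] [Nontrivial A] {g : Germ A} (hg : RigidT g) :
    Nonempty (Mod A g) := by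
  refine ⟨{ K := (GNS_pos hg).GNS
            π := (GNS_pos hg).gnsStarAlgHom
            ξ := (((GNS_pos hg).toPreGNS 1 : (GNS_pos hg).PreGNS) : (GNS_pos hg).GNS)
            norm_ξ := ?_
            kill := ?_
            cyc := ?_ }⟩
  · have h := GNS_norm_coe hg 1
    rw [star_one, mul_one, phi_one] at h
    have h2 : ‖(((GNS_pos hg).toPreGNS 1 : (GNS_pos hg).PreGNS) : (GNS_pos hg).GNS)‖ ^ 2 = 1 := by
      exact_mod_cast h
    exact (pow_eq_one_iff_of_nonneg (norm_nonneg _) two_ne_zero).mp h2
  · intro k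
    rw [GNS_pi_coe, mul_one]
    have h := GNS_norm_coe hg (star (g.t k))
    rw [star_star, phi_t] at h
    have h2 : ‖(((GNS_pos hg).toPreGNS (star (g.t k)) : (GNS_pos hg).PreGNS) :
        (GNS_pos hg).GNS)‖ ^ 2 = 0 := by
      exact_mod_cast h
    exact norm_eq_zero.mp (pow_eq_zero_iff two_ne_zero |>.mp h2)
  · intro L hL hmem
    rw [Submodule.eq_top_iff']
    intro x
    induction x using UniformSpace.Completion.induction_on with
    | hp => exact hL
    | ih a =>
      have h := hmem ((GNS_pos hg).ofPreGNS a)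
      rw [GNS_pi_coe, mul_one, PositiveLinearMap.toPreGNS_ofPreGNS] at h
      exact h

end C

end P070
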