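import Vale.Agent.Lib.P070.C.Base

/-!
# P070 C1: inner products with killed vectors

`⟨x, π a y⟩ = φ a ⟨x, y⟩` for killed `x, y`. Proof: `π (g.p n) x = x` for a killed vector
(`p n = 1 - ∑ t_k t_k^*`), the same for `y`, `p n` selfadjoint, so
`⟨x, π a y⟩ = ⟨x, π (p n * a * p n) y⟩`, and
`‖⟨x, π (p n * a * p n - φ a • p n) y⟩‖ ≤ ‖x‖ ‖y‖ ‖p n a p n - φ a p n‖ → 0` (star homomorphisms
are contractive), while `⟨x, π (φ a • p n) y⟩ = φ a ⟨x, y⟩`.
-/

open Filter Topology

namespace P070

universe u v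

namespace C

theorem p_killed {A : Type} [CStarAlgebra A] (g : Germ A) {K : Type u} [NormedAddCommGroup K]
    [InnerProductSpace ℂ K] [CompleteSpace K] (π : A →⋆ₐ[ℂ] (K →L[ℂ] K)) (x : K)
    (hx : Killed g π x) (n : ℕ) : π (g.p n) x = x := by
  have h1 : π (g.p n) = 1 - ∑ k ∈ Finset.range n, π (g.t k) * π (star (g.t k)) := by
    unfold Germ.p
    rw [map_sub, map_one, map_sum]
    simp only [map_mul]
  rw [h1, sub_apply, sum_apply]
  have h2 : ∀ k ∈ Finset.range n, (π (g.t k) * π (star (g.t k))) x = 0 := by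
    intro k _
    change π (g.t k) (π (star (g.t k)) x) = 0
    rw [hx k, map_zero]
  rw [Finset.sum_eq_zero h2, sub_zero]
  rfl

private theorem Inner_star {A : Type} [CStarAlgebra A] (g : Germ A) (n : ℕ) :
    star (g.p n) = g.p n := by
  unfold Germ.p
  rw [star_sub, star_one, star_sum]
  simp only [star_mul, star_star]

private theorem Inner_move {A : Type} [CStarAlgebra A] (g : Germ A) {K : Type u}
    [NormedAddCommGroup K] [InnerProductSpace ℂ K] [CompleteSpace K]
    (π : A →⋆ₐ[ℂ] (K →L[ℂ] K)) (x y : K) (hx : Killed g π x) (hy : Killed g π y) (a : A) (n : ℕ) :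
    inner ℂ x (π a y) = inner ℂ x (π (g.p n * a * g.p n) y) := by
  have h1 : π (g.p n * a * g.p n) y = π (g.p n) (π a (π (g.p n) y)) := by
    rw [map_mul, map_mul]
    rfl
  have h2 : inner ℂ (π (g.p n) x) (π a y) = inner ℂ x (π (g.p n) (π a y)) := by
    have h3 := ContinuousLinearMap.adjoint_inner_left (π (g.p n)) (π a y) x
    have h4 : ContinuousLinearMap.adjoint (π (g.p n)) = π (g.p n) := by
      rw [← ContinuousLinearMap.star_eq_adjoint, ← map_star, Inner_star]
    rwa [h4] at h3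
  rw [h1, p_killed g π y hy, ← h2, p_killed g π x hx]

theorem killed_inner {A : Type} [CStarAlgebra A] {g : Germ A} (hg : RigidT g) {K : Type u}
    [NormedAddCommGroup K] [InnerProductSpace ℂ K] [CompleteSpace K]
    (π : A →⋆ₐ[ℂ] (K →L[ℂ] K)) (x y : K) (hx : Killed g π x) (hy : Killed g π y) (a : A) :
    inner ℂ x (π a y) = phi hg a * inner ℂ x y := by
  have h1 : ∀ n, inner ℂ x (π a y) - phi hg a * inner ℂ x y =
      inner ℂ x (π (g.p n * a * g.p n - phi hg a • g.p n) y) := by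
    intro n
    rw [Inner_move g π x y hx hy a n, map_sub, map_smul, sub_apply, smul_apply, inner_sub_right,
      inner_smul_right, p_killed g π y hy]
  have h2 : ∀ n, ‖inner ℂ x (π a y) - phi hg a * inner ℂ x y‖ ≤
      ‖x‖ * (‖g.p n * a * g.p n - phi hg a • g.p n‖ * ‖y‖) := by
    intro n
    rw [h1 n]
    refine (norm_inner_le_norm _ _).trans (mul_le_mul_of_nonneg_left ?_ (norm_nonneg _))
    refine (ContinuousLinearMap.le_opNorm _ _).trans
      (mul_le_mul_of_nonneg_right ?_ (norm_nonneg _))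
    exact NonUnitalStarAlgHom.norm_apply_le π _
  have h3 : Tendsto (fun n => ‖x‖ * (‖g.p n * a * g.p n - phi hg a • g.p n‖ * ‖y‖)) atTop
      (𝓝 0) := by
    have h4 := ((phi_spec hg a).mul_const ‖y‖).const_mul ‖x‖
    rwa [zero_mul, mul_zero] at h4
  have h5 : ‖inner ℂ x (π a y) - phi hg a * inner ℂ x y‖ ≤ 0 :=
    ge_of_tendsto h3 (Eventually.of_forall h2)
  exact sub_eq_zero.1 (norm_le_zero_iff.1 h5)

end C

end P070
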