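import Vale.Agent.Lib.P070.C.Model

/-!
# P070 C: killed vectors of the direct sum

`x` killed by `z d` in `H`: every component `x c` is killed by `z d` in `K_c`; for `c ≠ d` it is `0`
(`S.ineq c d`), for `c = d` it is a multiple of `ξ_d` (`killed_span`). So `x = lp.single 2 d (x d)`.
-/

open Filter Topology

namespace P070

universe u v

namespace C

/-- the vector `ξ_c` in the direct sum -/
noncomputable def Sys.e {A : Type} [CStarAlgebra A] (S : Sys A) [DecidableEq S.C] (c : S.C) :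
    S.H := lp.single 2 c (S.M c).ξ

theorem norm_e {A : Type} [CStarAlgebra A] (S : Sys A) [DecidableEq S.C] (c : S.C) :
    ‖S.e c‖ = 1 := by
  have h := lp.norm_single (E := fun c => (S.M c).K) (p := 2) (by norm_num) c (S.M c).ξ
  rw [(S.M c).norm_ξ] at h
  exact h

private theorem killedH_single {A : Type} [CStarAlgebra A] (S : Sys A) [DecidableEq S.C]
    (Q : A →⋆ₐ[ℂ] (S.H →L[ℂ] S.H))
    (hQ : ∀ (a : A) (x : S.H) (c : S.C), (Q a x : ∀ c, (S.M c).K) c = (S.M c).π a (x c))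
    (a : A) (c : S.C) (x : (S.M c).K) :
    Q a (lp.single 2 c x) = lp.single 2 c ((S.M c).π a x) := by
  apply lp.ext
  funext d
  rw [hQ]
  rcases eq_or_ne d c with rfl | hd
  · rw [lp.single_apply_self, lp.single_apply_self]
  · rw [lp.single_apply_ne _ _ _ hd, lp.single_apply_ne _ _ _ hd, map_zero]

theorem killed_e {A : Type} [CStarAlgebra A] (S : Sys A) [DecidableEq S.C]
    (Q : A →⋆ₐ[ℂ] (S.H →L[ℂ] S.H))
    (hQ : ∀ (a : A) (x : S.H) (c : S.C), (Q a x : ∀ c, (S.M c).K) c = (S.M c).π a (x c))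
    (d : S.C) : Killed (S.z d) Q (S.e d) := by
  intro k
  unfold Sys.e
  rw [killedH_single S Q hQ, (S.M d).kill k, lp.single_zero]

theorem killed_H {A : Type} [CStarAlgebra A] (S : Sys A) [DecidableEq S.C]
    (Q : A →⋆ₐ[ℂ] (S.H →L[ℂ] S.H))
    (hQ : ∀ (a : A) (x : S.H) (c : S.C), (Q a x : ∀ c, (S.M c).K) c = (S.M c).π a (x c))
    (d : S.C) (x : S.H) (hx : Killed (S.z d) Q x) : x = (inner ℂ (S.e d) x : ℂ) • S.e d := by
  have hk : ∀ c, Killed (S.z d) (S.M c).π (x c) := fun c k => by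
    rw [← hQ, hx k]
    rfl
  have hin : (inner ℂ (S.e d) x : ℂ) = inner ℂ (S.M d).ξ (x d) := by
    unfold Sys.e
    rw [lp.inner_single_left]
  rw [hin]
  apply lp.ext
  funext c
  rw [lp.coeFn_smul, Pi.smul_apply]
  unfold Sys.e
  rcases eq_or_ne c d with rfl | hc
  · rw [lp.single_apply_self]
    exact killed_span (S.rig c) (S.M c) (x c) (hk c)
  · rw [lp.single_apply_ne _ _ _ hc, smul_zero]
    exact S.ineq c d hc (x c) (hk c)

/-- `Q a (e_c)` is the vector `π_c(a) ξ_c` in the component `c` -/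
theorem Q_e {A : Type} [CStarAlgebra A] (S : Sys A) [DecidableEq S.C]
    (Q : A →⋆ₐ[ℂ] (S.H →L[ℂ] S.H))
    (hQ : ∀ (a : A) (x : S.H) (c : S.C), (Q a x : ∀ c, (S.M c).K) c = (S.M c).π a (x c))
    (a : A) (c : S.C) (x : (S.M c).K) :
    Q a (lp.single 2 c x) = lp.single 2 c ((S.M c).π a x) :=
  killedH_single S Q hQ a c x

end C

end P070
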