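import Vale.Agent.Lib.P070.C.Base
import Vale.Agent.Lib.P070.BasicA

/-!
# P070 C2a: the functional `phi` of a rigid germ is a positive linear functional

`p_n` is a projection, `p_n ≠ 0` (`p_n * t_n = t_n ≠ 0`; `A` is nontrivial because `t_n^* t_n = 1`;
if `A` were trivial nothing is claimed: `g.t 0` gives `0 = 1`... use the hypothesis `Nontrivial A`),
`‖p_n‖ = 1`. The scalar in the definition of `RigidT` is unique: if `‖p a p - c p‖ → 0` and
`‖p a p - d p‖ → 0` then `|c - d| = ‖(c - d) p_n‖ → 0`. Hence `phi` is linear, `phi 1 = 1`,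
`phi (star a) = conj (phi a)`, and `phi (star a * a) ≥ 0`: for `r = phi (star a * a)` (real),
if `r < 0` then `p a^* a p - r p ≥ - r p ≥ 0` has norm `≥ |r|`.
(order: `attribute [local instance] CStarAlgebra.spectralOrder CStarAlgebra.spectralOrderedRing`)
`phi (t_k * star t_k) = 0` because `p_n t_k = 0` for `n > k`.
-/

open Filter Topology

namespace P070

attribute [local instance] CStarAlgebra.spectralOrder CStarAlgebra.spectralOrderedRing

universe u v

namespace C

variable {B : Type} [CStarAlgebra B]

theorem Phi_eq [Nontrivial B] {g : Germ B} {x : B} {c d : ℂ}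
    (hc : Tendsto (fun n => ‖g.p n * x * g.p n - c • g.p n‖) atTop (𝓝 0))
    (hd : Tendsto (fun n => ‖g.p n * x * g.p n - d • g.p n‖) atTop (𝓝 0)) : c = d := by
  rw [← sub_eq_zero, ← norm_le_zero_iff]
  have h1 := hc.add hd
  rw [add_zero] at h1
  exact ge_of_tendsto' h1 fun n => BasicA_dist g le_rfl le_rfl

theorem phi_unique {A : Type} [CStarAlgebra A] [Nontrivial A] {g : Germ A} (hg : RigidT g) (a : A)
    (c : ℂ) (hc : Tendsto (fun n => ‖g.p n * a * g.p n - c • g.p n‖) atTop (𝓝 0)) :
    phi hg a = c := by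
  exact Phi_eq (phi_spec hg a) hc

theorem phi_add {A : Type} [CStarAlgebra A] [Nontrivial A] {g : Germ A} (hg : RigidT g)
    (a b : A) : phi hg (a + b) = phi hg a + phi hg b := by
  refine phi_unique hg (a + b) _ ?_
  have h1 := (phi_spec hg a).add (phi_spec hg b)
  rw [add_zero] at h1
  refine squeeze_zero (fun n => norm_nonneg _) (fun n => ?_) h1
  have e : g.p n * (a + b) * g.p n - (phi hg a + phi hg b) • g.p n =
      (g.p n * a * g.p n - phi hg a • g.p n) + (g.p n * b * g.p n - phi hg b • g.p n) := by
    rw [mul_add, add_mul, add_smul]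
    abel
  rw [e]
  exact norm_add_le _ _

theorem phi_smul {A : Type} [CStarAlgebra A] [Nontrivial A] {g : Germ A} (hg : RigidT g)
    (c : ℂ) (a : A) : phi hg (c • a) = c * phi hg a := by
  refine phi_unique hg (c • a) _ ?_
  have h1 := (phi_spec hg a).const_mul ‖c‖
  rw [mul_zero] at h1
  refine h1.congr fun n => ?_
  rw [← norm_smul, smul_sub, smul_smul, mul_smul_comm, smul_mul_assoc]

theorem phi_one {A : Type} [CStarAlgebra A] [Nontrivial A] {g : Germ A} (hg : RigidT g) :
    phi hg 1 = 1 := by
  refine phi_unique hg 1 1 ?_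
  refine tendsto_const_nhds.congr fun n => ?_
  rw [mul_one, g.p_mul_p_of_le le_rfl, one_smul, sub_self, norm_zero]

theorem phi_pos {A : Type} [CStarAlgebra A] [Nontrivial A] {g : Germ A} (hg : RigidT g) (a : A) :
    ∃ r : ℝ, 0 ≤ r ∧ phi hg (star a * a) = r := by
  have h1 := phi_spec hg (star a * a)
  set c := phi hg (star a * a) with hc
  have hreal : (starRingEnd ℂ) c = c := by
    refine (Phi_eq h1 (h1.congr fun n => ?_)).symm
    rw [← norm_star]
    congr 1
    rw [star_sub, star_mul, star_mul, star_mul, star_star, g.star_p, star_smul, g.star_p,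
      ← mul_assoc, Complex.star_def]
  obtain ⟨r, hr⟩ := Complex.conj_eq_iff_real.mp hreal
  refine ⟨r, ?_, hr⟩
  by_contra hneg
  push Not at hneg
  have h2 : ∀ n, -r ≤ ‖g.p n * (star a * a) * g.p n - c • g.p n‖ := by
    intro n
    have hp0 : 0 ≤ (-r) • g.p n := by
      refine smul_nonneg (by linarith) ?_
      have : g.p n = star (g.p n) * g.p n := by rw [g.star_p, g.p_mul_p_of_le le_rfl]
      rw [this]
      exact star_mul_self_nonneg _
    have hle : (-r) • g.p n ≤ g.p n * (star a * a) * g.p n - c • g.p n := by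
      have e : g.p n * (star a * a) * g.p n - c • g.p n =
          star (a * g.p n) * (a * g.p n) + (-r) • g.p n := by
        rw [star_mul, g.star_p, hr, neg_smul, ← sub_eq_add_neg]
        congr 1
        simp only [mul_assoc]
      rw [e]
      exact le_add_of_nonneg_left (star_mul_self_nonneg _)
    have h3 := CStarAlgebra.norm_le_norm_of_nonneg_of_le hp0 hle
    rwa [norm_smul, g.norm_p, mul_one, Real.norm_of_nonneg (by linarith)] at h3
  have h4 := ge_of_tendsto' h1 h2
  linarith

theorem phi_t {A : Type} [CStarAlgebra A] [Nontrivial A] {g : Germ A} (hg : RigidT g) (k : ℕ) :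
    phi hg (g.t k * star (g.t k)) = 0 := by
  refine phi_unique hg _ 0 ?_
  refine tendsto_const_nhds.congr' ?_
  filter_upwards [eventually_gt_atTop k] with n hn
  rw [← mul_assoc, g.p_mul_t_of_lt hn, zero_mul, zero_mul, zero_smul, sub_zero, norm_zero]

end C

end P070
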