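import Vale.Agent.Lib.P070.C.KilledH

/-!
# P070 C: the structure carrying the final algebra `D`
-/

open Filter Topology

namespace P070

universe u v

namespace C

/-- the final algebra `D = C^*(A, u_c)`, with its representation on `H = ⊕_c K_c` -/
structure Star {A : Type} [CStarAlgebra A] (S : Sys A) [DecidableEq S.C] where
  D : Type
  [iD : CStarAlgebra D]
  ι : A →⋆ₐ[ℂ] D
  w : S.C → D
  hw : ∀ c, w c ∈ unitary D
  hw0 : w S.c₀ = 1
  hwt : ∀ c k, w c * ι ((S.z S.c₀).t k) = ι ((S.z c).t k)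
  gen : ∀ F : StarSubalgebra ℂ D, IsClosed (F : Set D) → (∀ a, ι a ∈ F) → (∀ c, w c ∈ F) → F = ⊤
  π : D →⋆ₐ[ℂ] (S.H →L[ℂ] S.H)
  hπ : ∀ (a : A) (x : S.H) (c : S.C), (π (ι a) x : ∀ c, (S.M c).K) c = (S.M c).π a (x c)
  hπw : ∀ c, π (w c) (S.e S.c₀) = S.e c

attribute [instance] Star.iD

end C

end P070
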