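import Vale.Agent.Lib.P070.C.GNS
import Vale.Agent.Lib.P070.C.Model

/-!
# P070 C6: existence of a system

Choose a model `M g` for every rigid germ `g` (`exists_mod`). On the subtype
`G = {g : Germ A // RigidT g}` the relation `R g h := UEq (M g).π (M h).π` is an equivalence
relation. `C = Quotient`, `z c = (c.out : Germ A)`, `c₀ = ⟦g₀⟧`.
* `ineq`: if `x ≠ 0` in `(M (z c)).K` is killed by `z d`, then `killed_transfer` (the
  representation `(M (z c)).π` is irreducible by `mod_irr`) gives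
  `UEq (M (z d)).π (M (z c)).π`, so `d = c`.
* `full`: `c = ⟦g⟧`; `R (z c) g`: `U : (M (z c)).K ≃ (M g).K`; `x = U.symm (M g).ξ` is nonzero and
  killed by `g`.
-/

open Filter Topology

namespace P070

universe u v

namespace C

private theorem sysE_ueq_refl {A : Type} [CStarAlgebra A] {K : Type u} [NormedAddCommGroup K]
    [InnerProductSpace ℂ K] [CompleteSpace K] (π : A →⋆ₐ[ℂ] (K →L[ℂ] K)) : UEq π π :=
  ⟨LinearIsometryEquiv.refl ℂ K, fun _ _ => rfl⟩

private theorem sysE_ueq_symm {A : Type} [CStarAlgebra A] {K : Type u} [NormedAddCommGroup K]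
    [InnerProductSpace ℂ K] [CompleteSpace K] {L : Type v} [NormedAddCommGroup L]
    [InnerProductSpace ℂ L] [CompleteSpace L] {π : A →⋆ₐ[ℂ] (K →L[ℂ] K)}
    {ρ : A →⋆ₐ[ℂ] (L →L[ℂ] L)} (h : UEq π ρ) : UEq ρ π := by
  obtain ⟨U, hU⟩ := h
  refine ⟨U.symm, fun a x => ?_⟩
  apply U.injective
  rw [U.apply_symm_apply, hU, U.apply_symm_apply]

private theorem sysE_ueq_trans {A : Type} [CStarAlgebra A] {K : Type u} [NormedAddCommGroup K]
    [InnerProductSpace ℂ K] [CompleteSpace K] {L : Type v} [NormedAddCommGroup L]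
    [InnerProductSpace ℂ L] [CompleteSpace L] {J : Type v} [NormedAddCommGroup J]
    [InnerProductSpace ℂ J] [CompleteSpace J] {π : A →⋆ₐ[ℂ] (K →L[ℂ] K)}
    {ρ : A →⋆ₐ[ℂ] (L →L[ℂ] L)} {σ : A →⋆ₐ[ℂ] (J →L[ℂ] J)} (h : UEq π ρ) (h' : UEq ρ σ) :
    UEq π σ := by
  obtain ⟨U, hU⟩ := h
  obtain ⟨V, hV⟩ := h'
  refine ⟨U.trans V, fun a x => ?_⟩
  rw [LinearIsometryEquiv.trans_apply, LinearIsometryEquiv.trans_apply, hU, hV]

/-- the chosen model of a rigid germ -/
private noncomputable def sysEmod {A : Type} [CStarAlgebra A] [Nontrivial A]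
    (g : {g : Germ A // RigidT g}) : Mod A g.1 := Classical.choice (exists_mod g.2)

/-- rigid germs up to equivalence of their models -/
private def sysEsetoid (A : Type) [CStarAlgebra A] [Nontrivial A] :
    Setoid {g : Germ A // RigidT g} where
  r g h := UEq (sysEmod g).π (sysEmod h).π
  iseqv := ⟨fun _ => sysE_ueq_refl _, fun h => sysE_ueq_symm h,
    fun h h' => sysE_ueq_trans h h'⟩

theorem exists_sys {A : Type} [CStarAlgebra A] [Nontrivial A] (h : ∃ g : Germ A, RigidT g) :
    Nonempty (Sys A) := by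
  obtain ⟨g₀, hg₀⟩ := h
  refine ⟨{ C := Quotient (sysEsetoid A)
            z := fun c => (Quotient.out c).1
            rig := fun c => (Quotient.out c).2
            M := fun c => sysEmod (Quotient.out c)
            c₀ := Quotient.mk (sysEsetoid A) ⟨g₀, hg₀⟩
            ineq := ?_
            full := ?_ }⟩
  · intro c d hcd x hk
    by_contra hx
    apply hcd
    have h1 : UEq (sysEmod (Quotient.out d)).π (sysEmod (Quotient.out c)).π :=
      killed_transfer (Quotient.out d).2 (sysEmod (Quotient.out d)) (sysEmod (Quotient.out c)).π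
        (mod_irr (Quotient.out c).2 (sysEmod (Quotient.out c))) x hx hk
    have h2 : (sysEsetoid A).r (Quotient.out c) (Quotient.out d) := sysE_ueq_symm h1
    have h3 := Quotient.sound (s := sysEsetoid A) h2
    rw [Quotient.out_eq, Quotient.out_eq] at h3
    exact h3
  · intro g hg
    refine ⟨Quotient.mk (sysEsetoid A) ⟨g, hg⟩, ?_⟩
    have h1 : UEq (sysEmod (Quotient.out (Quotient.mk (sysEsetoid A) ⟨g, hg⟩))).π
        (sysEmod ⟨g, hg⟩).π := Quotient.mk_out (s := sysEsetoid A) (⟨g, hg⟩ : {g : Germ A // RigidT g})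
    obtain ⟨U, hU⟩ := h1
    refine ⟨U.symm (sysEmod ⟨g, hg⟩).ξ, ?_, ?_⟩
    · intro h0
      have h2 : (sysEmod ⟨g, hg⟩).ξ = 0 := by
        rw [← U.apply_symm_apply (sysEmod ⟨g, hg⟩).ξ, h0, map_zero]
      have h3 := (sysEmod ⟨g, hg⟩).norm_ξ
      rw [h2, norm_zero] at h3
      exact zero_ne_one h3
    · intro k
      apply U.injective
      rw [hU, U.apply_symm_apply, map_zero]
      exact (sysEmod ⟨g, hg⟩).kill k

end C

end P070
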